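import Vale.Agent.P099.Tri

/-! # P099, module B1: start of a beam and free motion

`beam_init`: for small `r, θ` the point `y + r v e^{iθ}` is in the open triangle, so
`e^{-iλr} f(y + r v_θ, v_θ) = f(y, v_θ)` by `free`; then use `LipDir`
(`‖v e^{iθ} - v‖ = ‖e^{iθ} - 1‖`).
`tr_free`: with `r' = r - τ` the points `x - t0 u + r u_θ` and `x - t0 u + r' u_θ` are close to
`x + τ u` and `x`, hence in the triangle; use `free` between them. -/

set_option autoImplicit false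

namespace Vale.Agent.P099

open Complex

theorem B1_open {U : Set ℂ} (hU : IsOpen U) {c u : ℂ} {s : ℝ} (h : c + s * u ∈ U) :
    ∃ ε > 0, ∀ θ r : ℝ, |θ| < ε → |r - s| < ε → c + r * (u * exp (I * θ)) ∈ U := by
  have hc : Continuous fun p : ℝ × ℝ => c + (p.2 : ℂ) * (u * exp (I * p.1)) := by fun_prop
  have ho := hU.preimage hc
  have hm : ((0 : ℝ), s) ∈ (fun p : ℝ × ℝ => c + (p.2 : ℂ) * (u * exp (I * p.1))) ⁻¹' U := by
    show c + (s : ℂ) * (u * exp (I * ((0 : ℝ) : ℂ))) ∈ U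
    rw [ofReal_zero, mul_zero, exp_zero, mul_one]
    exact h
  obtain ⟨ε, hε, hball⟩ := Metric.isOpen_iff.1 ho _ hm
  refine ⟨ε, hε, fun θ r hθ hr => ?_⟩
  have h1 : (θ, r) ∈ Metric.ball ((0 : ℝ), s) ε := by
    rw [Metric.mem_ball, Prod.dist_eq, max_lt_iff, Real.dist_eq, Real.dist_eq, sub_zero]
    exact ⟨hθ, hr⟩
  exact hball h1

theorem B1_norm {u : ℂ} (hu : ‖u‖ = 1) (θ : ℝ) : ‖u * exp (I * θ)‖ = 1 := by
  rw [norm_mul, hu, one_mul, mul_comm, norm_exp_ofReal_mul_I]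

theorem beam_init {A : Fin 3 → ℂ} (hA : AffineIndependent ℝ A) {f : ℂ → ℂ → ℂ} {lam L : ℝ}
    (hf : Eig A lam f) (hL : LipDir A L f) {y v : ℂ} (hy : y ∈ tri A) (hv : ‖v‖ = 1) :
    Beam f lam L y v 0 := by
  obtain ⟨ε, hε, h⟩ := B1_open (isOpen_tri hA) (c := y) (u := v) (s := 0)
    (by rw [ofReal_zero, zero_mul, add_zero]; exact hy)
  refine ⟨ε, hε, fun θ r hθ hr => ?_⟩
  have h1 := h θ r hθ hr
  have h2 := hf.free y (v * exp (I * θ)) r (B1_norm hv θ) hy h1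
  rw [ofReal_zero, zero_mul, sub_zero, h2, ← mul_assoc, ← exp_add, neg_add_cancel, exp_zero,
    one_mul, mul_zero, ofReal_zero, mul_zero, neg_zero, exp_zero, one_mul]
  refine (hL y hy _ _ (B1_norm hv θ) hv).trans_eq ?_
  have e : v * exp (I * θ) - v = v * (exp (I * θ) - 1) := by ring
  rw [e, norm_mul, hv, one_mul]

theorem tr_free {A : Fin 3 → ℂ} (hA : AffineIndependent ℝ A) {f : ℂ → ℂ → ℂ} {lam L : ℝ}
    (hf : Eig A lam f) {x u : ℂ} (hu : ‖u‖ = 1) (hx : x ∈ tri A) (τ : ℝ)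
    (hx' : x + τ * u ∈ tri A) : Tr f lam L x u (x + τ * u) u τ := by
  intro t0 hB
  obtain ⟨ε₁, hε₁, h1⟩ := hB
  obtain ⟨ε₂, hε₂, h2⟩ := B1_open (isOpen_tri hA) (c := x - t0 * u) (u := u) (s := t0)
    (by rw [sub_add_cancel]; exact hx)
  obtain ⟨ε₃, hε₃, h3⟩ := B1_open (isOpen_tri hA) (c := x - t0 * u) (u := u) (s := t0 + τ)
    (by
      have e : x - t0 * u + ((t0 + τ : ℝ) : ℂ) * u = x + τ * u := by
        push_cast
        ring
      rw [e]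
      exact hx')
  refine ⟨min ε₁ (min ε₂ ε₃), lt_min hε₁ (lt_min hε₂ hε₃), fun θ r hθ hr => ?_⟩
  rw [lt_min_iff, lt_min_iff] at hθ hr
  obtain ⟨hθ1, hθ2, hθ3⟩ := hθ
  obtain ⟨hr1, hr2, hr3⟩ := hr
  have er : r - τ - t0 = r - (t0 + τ) := by ring
  have k1 := h1 θ (r - τ) hθ1 (by rw [er]; exact hr1)
  have k2 := h2 θ (r - τ) hθ2 (by rw [er]; exact hr2)
  have k3 := h3 θ r hθ3 hr3
  have e3 : x - t0 * u + r * (u * exp (I * θ)) =
      (x - t0 * u + ((r - τ : ℝ) : ℂ) * (u * exp (I * θ))) + τ * (u * exp (I * θ)) := by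
    push_cast
    ring
  have e4 : x + τ * u - ((t0 + τ : ℝ) : ℂ) * u + r * (u * exp (I * θ)) =
      x - t0 * u + r * (u * exp (I * θ)) := by
    push_cast
    ring
  rw [e3] at k3
  have m1 := hf.free _ _ τ (B1_norm hu θ) k2 k3
  have m2 := hf.free x u τ hu hx hx'
  have hm : ∀ a b Z : ℂ, exp a * (exp b * Z) = exp (a + b) * Z := fun a b Z => by
    rw [← mul_assoc, ← exp_add]
  rw [e4, e3, m1, m2, hm, hm]
  have e5 : -(I * ((lam * r : ℝ) : ℂ)) + I * ((lam * τ : ℝ) : ℂ) =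
      -(I * ((lam * (r - τ) : ℝ) : ℂ)) := by
    push_cast
    ring
  have e6 : -(I * ((lam * (t0 + τ) : ℝ) : ℂ)) + I * ((lam * τ : ℝ) : ℂ) =
      -(I * ((lam * t0 : ℝ) : ℂ)) := by
    push_cast
    ring
  rw [e5, e6]
  exact k1

theorem tr_trans {f : ℂ → ℂ → ℂ} {lam L : ℝ} {x u x' u' x'' u'' : ℂ} {t t' : ℝ}
    (h : Tr f lam L x u x' u' t) (h' : Tr f lam L x' u' x'' u'' t') :
    Tr f lam L x u x'' u'' (t + t') := by
  intro t0 hB
  have := h' _ (h t0 hB)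
  rwa [add_assoc] at this

end Vale.Agent.P099
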