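import Vale.Agent.P099.Refl
import Vale.Agent.P099.Beam1

/-! # P099, module B2: one reflection of a beam

Put `x = p - s u`, `x' = p + t Ru`, `Y = x - t0 u` (virtual source), `Y' = x' - (t0+s+t) Ru = p - (t0+s) Ru`.
For `θ` small let `u_- = u e^{-iθ}`, so `R u_- = (Ru) e^{iθ}` (`refl_mul`).  The ray from `Y` in
direction `u_-` meets the line of the side at `p_θ = Y + r_θ u_-`, where
`r_θ = cr (dir) (p - Y) / cr (dir) (u_-)`, `cr a b = (conj a * b).im`, is continuous at `θ = 0` with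
`r_0 = t0 + s` (`cr (dir) u ≠ 0` because `p - s u` is not on the line of the side); `p_θ` is on the open side for small
`θ` (`side_nhds`).  Also `p_θ = Y' + r_θ R u_-` (apply the reflection fixing `p` and the side line).
For `r` close to `t0+s+t`: `Y' + r (Ru)e^{iθ} = p_θ + (r - r_θ) R u_-`; apply `bounce` at `p_θ` with `s` and
`r - r_θ > 0` (the points `p_θ - s u_-`, `p_θ + (r-r_θ) R u_-` are close to `x`, `x'`), then the
beam condition at `(x,u)` with `-θ` and `r' = r_θ - s`. Also `bounce` at `p` itself. -/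

set_option autoImplicit false

namespace Vale.Agent.P099

open Complex Topology Filter

theorem B2_real {d z : ℂ} (hd : d ≠ 0) (h : ((starRingEnd ℂ) d * z).im = 0) :
    z = ((((starRingEnd ℂ) d * z).re / Complex.normSq d : ℝ) : ℂ) * d := by
  have h1 : (starRingEnd ℂ) d * z = (((starRingEnd ℂ) d * z).re : ℂ) := by
    apply Complex.ext
    · simp
    · rw [h, ofReal_im]
  have hn : (Complex.normSq d : ℂ) ≠ 0 := by
    exact_mod_cast (Complex.normSq_pos.mpr hd).ne'
  have h2 : (Complex.normSq d : ℂ) = (starRingEnd ℂ) d * d := by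
    rw [mul_comm, Complex.mul_conj]
  rw [ofReal_div, div_mul_eq_mul_div, eq_div_iff hn, ← h1, h2]
  ring

theorem B2_cross {A : Fin 3 → ℂ} (hA : AffineIndependent ℝ A) {i : Fin 3} {p u : ℂ} {s : ℝ}
    (hp : p ∈ side A i) (h1 : p - s * u ∈ tri A) :
    ((starRingEnd ℂ) (dir A i) * u).im ≠ 0 := by
  intro h0
  have hu := B2_real (dir_ne hA i) h0
  set ρ : ℝ := ((starRingEnd ℂ) (dir A i) * u).re / Complex.normSq (dir A i) with hρ
  obtain ⟨W, -, -, -, -, hW⟩ := exists_weight hA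
  obtain ⟨v, hv, hv1, hve⟩ := h1
  obtain ⟨w, hwi, -, hw1, hwe⟩ := hp
  have e1 := hW v hv1 i
  have e2 := hW (fun j => w j + (if j = i + 1 then -(s * ρ) else 0) +
    (if j = i + 2 then s * ρ else 0)) (by
      simp only [Finset.sum_add_distrib, hw1, Finset.sum_ite_eq', Finset.mem_univ, if_true]
      ring) i
  have e3 : ∑ j, ((v j : ℝ) : ℂ) * A j = ∑ j, ((w j + (if j = i + 1 then -(s * ρ) else 0) +
      (if j = i + 2 then s * ρ else 0) : ℝ) : ℂ) * A j := by
    rw [← hve, hu, hwe]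
    simp only [ofReal_add, add_mul, Finset.sum_add_distrib]
    have e4 : ∑ j, (((if j = i + 1 then -(s * ρ) else 0 : ℝ)) : ℂ) * A j =
        -(s * ρ) * A (i + 1) := by
      rw [Finset.sum_eq_single (i + 1)]
      · simp
      · intro b _ hb
        simp [hb]
      · simp
    have e5 : ∑ j, (((if j = i + 2 then s * ρ else 0 : ℝ)) : ℂ) * A j =
        (s * ρ) * A (i + 2) := by
      rw [Finset.sum_eq_single (i + 2)]
      · simp
      · intro b _ hb
        simp [hb]
      · simp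
    rw [e4, e5]
    unfold dir
    ring
  rw [e3, e2] at e1
  have h5 : i ≠ i + 1 := by
    fin_cases i <;> decide
  have h6 : i ≠ i + 2 := by
    fin_cases i <;> decide
  simp only [h5, h6, if_false, hwi, add_zero] at e1
  have := hv i
  linarith

theorem tr_bounce {A : Fin 3 → ℂ} (hA : AffineIndependent ℝ A) {f : ℂ → ℂ → ℂ} {lam L : ℝ}
    (hf : Eig A lam f) {i : Fin 3} {p u : ℂ} {s t : ℝ} (hu : ‖u‖ = 1) (hp : p ∈ side A i)
    (hs : 0 < s) (ht : 0 < t) (h1 : p - s * u ∈ tri A) (h2 : p + t * refl A i u ∈ tri A) :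
    Tr f lam L (p - s * u) u (p + t * refl A i u) (refl A i u) (s + t) := by
  intro t0 hB
  obtain ⟨ε, hε, hB⟩ := hB
  have hd := dir_ne hA i
  have hcr := B2_cross hA hp h1
  set d := dir A i with hdd
  set um : ℝ → ℂ := fun θ => u * exp (I * ((-θ : ℝ) : ℂ)) with hum
  have hum0 : um 0 = u := by simp [hum]
  have humc : Continuous um := by fun_prop
  have humn : ∀ θ, ‖um θ‖ = 1 := fun θ => by
    simp only [hum]
    rw [norm_mul, hu, mul_comm I, norm_exp_ofReal_mul_I, one_mul]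
  have hRum : ∀ θ : ℝ, refl A i (um θ) = refl A i u * exp (I * (θ : ℂ)) := by
    intro θ
    simp only [hum]
    rw [refl_mul, ← exp_conj, map_mul, conj_I, conj_ofReal]
    congr 2
    push_cast
    ring
  set k : ℝ → ℝ := fun θ => ((starRingEnd ℂ) d * um θ).im with hk
  have hkc : Continuous k := by fun_prop
  have hk0 : k 0 ≠ 0 := by
    simp only [hk, hum0]
    exact hcr
  set Y : ℂ := p - s * u - t0 * u with hY
  set N : ℝ := ((starRingEnd ℂ) d * (p - Y)).im with hN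
  set rr : ℝ → ℝ := fun θ => N / k θ with hrr
  have hNk : N = (s + t0) * k 0 := by
    have e1 : (starRingEnd ℂ) d * (p - Y) = ((s + t0 : ℝ) : ℂ) * ((starRingEnd ℂ) d * u) := by
      rw [hY]
      push_cast
      ring
    rw [hN, e1, im_ofReal_mul]
    simp only [hk, hum0]
  have hrr0 : rr 0 = s + t0 := by
    simp only [hrr]
    rw [hNk]
    field_simp
  have hrrc : ContinuousAt rr 0 := by
    simp only [hrr]
    exact continuousAt_const.div hkc.continuousAt hk0
  set P : ℝ → ℂ := fun θ => Y + rr θ * um θ with hP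
  have hP0 : P 0 = p := by
    simp only [hP, hrr0, hum0, hY]
    push_cast
    ring
  have hPc : ContinuousAt P 0 := by
    simp only [hP]
    exact continuousAt_const.add ((Complex.continuous_ofReal.continuousAt.comp hrrc).mul
      humc.continuousAt)
  have hkev : ∀ᶠ θ in 𝓝 (0 : ℝ), k θ ≠ 0 := hkc.continuousAt.eventually_ne hk0
  -- P θ = p + w θ * d
  set w : ℝ → ℝ := fun θ => ((starRingEnd ℂ) d * (P θ - p)).re / Complex.normSq d with hw
  have hw0 : w 0 = 0 := by simp [hw, hP0]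
  have hwc : ContinuousAt w 0 := by
    simp only [hw]
    refine ContinuousAt.div_const ?_ _
    exact Complex.continuous_re.continuousAt.comp
      (continuousAt_const.mul (hPc.sub continuousAt_const))
  have hPw : ∀ θ, k θ ≠ 0 → P θ - p = (w θ : ℂ) * d := by
    intro θ hθ
    refine B2_real hd ?_
    have e1 : (starRingEnd ℂ) d * (P θ - p) =
        ((rr θ : ℝ) : ℂ) * ((starRingEnd ℂ) d * um θ) - (starRingEnd ℂ) d * (p - Y) := by
      simp only [hP]
      ring
    rw [e1, sub_im, im_ofReal_mul]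
    simp only [hrr]
    rw [← hN]
    have : ((starRingEnd ℂ) d * um θ).im = k θ := rfl
    rw [this]
    field_simp
    ring
  obtain ⟨δ, hδ, hside⟩ := side_nhds hp
  have E1 : ∀ᶠ θ in 𝓝 (0 : ℝ), |w θ| < δ := by
    have hc : ContinuousAt (fun θ : ℝ => |w θ|) 0 := hwc.abs
    refine hc.tendsto.eventually_lt_const ?_
    rw [hw0, abs_zero]
    exact hδ
  have E2 : ∀ᶠ θ in 𝓝 (0 : ℝ), P θ - s * um θ ∈ tri A := by
    have hc : ContinuousAt (fun θ => P θ - s * um θ) 0 :=
      hPc.sub (continuousAt_const.mul humc.continuousAt)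
    refine hc.eventually ((isOpen_tri hA).mem_nhds ?_)
    show P 0 - s * um 0 ∈ tri A
    rw [hP0, hum0]
    exact h1
  have E3 : ∀ᶠ θ in 𝓝 (0 : ℝ), |-θ| < ε := by
    have hc : ContinuousAt (fun θ : ℝ => |-θ|) 0 := by fun_prop
    exact hc.tendsto.eventually_lt_const (by simpa using hε)
  have E4 : ∀ᶠ θ in 𝓝 (0 : ℝ), |rr θ - s - t0| < ε := by
    have hc : ContinuousAt (fun θ : ℝ => |rr θ - s - t0|) 0 :=
      ((hrrc.sub continuousAt_const).sub continuousAt_const).abs
    refine hc.tendsto.eventually_lt_const ?_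
    rw [hrr0]
    simpa using hε
  set t1 : ℝ := t0 + (s + t) with ht1
  have E5 : ∀ᶠ q : ℝ × ℝ in 𝓝 ((0 : ℝ), t1), 0 < q.2 - rr q.1 := by
    have hc : ContinuousAt (fun q : ℝ × ℝ => q.2 - rr q.1) ((0 : ℝ), t1) :=
      continuousAt_snd.sub (ContinuousAt.comp (x := ((0 : ℝ), t1)) (g := rr) (f := Prod.fst)
        hrrc continuousAt_fst)
    refine hc.tendsto.eventually_const_lt ?_
    show 0 < t1 - rr 0
    rw [hrr0, ht1]
    linarith
  have hRc : Continuous (refl A i) := by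
    unfold refl
    fun_prop
  have E6 : ∀ᶠ q : ℝ × ℝ in 𝓝 ((0 : ℝ), t1),
      P q.1 + ((q.2 - rr q.1 : ℝ) : ℂ) * refl A i (um q.1) ∈ tri A := by
    have hfst : ContinuousAt (Prod.fst : ℝ × ℝ → ℝ) ((0 : ℝ), t1) := continuousAt_fst
    have hc1 : ContinuousAt (fun q : ℝ × ℝ => P q.1) ((0 : ℝ), t1) :=
      ContinuousAt.comp (x := ((0 : ℝ), t1)) (g := P) (f := Prod.fst) hPc hfst
    have hc2 : ContinuousAt (fun q : ℝ × ℝ => q.2 - rr q.1) ((0 : ℝ), t1) :=
      continuousAt_snd.sub (ContinuousAt.comp (x := ((0 : ℝ), t1)) (g := rr) (f := Prod.fst)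
        hrrc hfst)
    have hc3 : ContinuousAt (fun q : ℝ × ℝ => refl A i (um q.1)) ((0 : ℝ), t1) :=
      ((hRc.comp humc).comp continuous_fst).continuousAt
    have hc : ContinuousAt (fun q : ℝ × ℝ =>
        P q.1 + ((q.2 - rr q.1 : ℝ) : ℂ) * refl A i (um q.1)) ((0 : ℝ), t1) :=
      hc1.add ((ContinuousAt.comp (g := fun x : ℝ => (x : ℂ))
        Complex.continuous_ofReal.continuousAt hc2).mul hc3)
    refine hc.eventually ((isOpen_tri hA).mem_nhds ?_)
    show P 0 + ((t1 - rr 0 : ℝ) : ℂ) * refl A i (um 0) ∈ tri A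
    rw [hP0, hrr0, hum0, ht1]
    have : t0 + (s + t) - (s + t0) = t := by ring
    rw [this]
    exact h2
  have Eall : ∀ᶠ q : ℝ × ℝ in 𝓝 ((0 : ℝ), t1), (k q.1 ≠ 0 ∧ |w q.1| < δ ∧
      P q.1 - s * um q.1 ∈ tri A ∧ |-q.1| < ε ∧ |rr q.1 - s - t0| < ε) ∧
      0 < q.2 - rr q.1 ∧ P q.1 + ((q.2 - rr q.1 : ℝ) : ℂ) * refl A i (um q.1) ∈ tri A := by
    have hθ : ∀ᶠ θ in 𝓝 (0 : ℝ), (k θ ≠ 0 ∧ |w θ| < δ ∧ P θ - s * um θ ∈ tri A ∧ |-θ| < ε ∧
        |rr θ - s - t0| < ε) := by
      filter_upwards [hkev, E1, E2, E3, E4] with θ a b c d e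
      exact ⟨a, b, c, d, e⟩
    have hfst : Tendsto (Prod.fst : ℝ × ℝ → ℝ) (𝓝 ((0 : ℝ), t1)) (𝓝 0) := continuousAt_fst
    filter_upwards [hfst.eventually hθ, E5, E6] with q a b c
    exact ⟨a, b, c⟩
  obtain ⟨η, hη, hall⟩ := Metric.eventually_nhds_iff.mp Eall
  refine ⟨η, hη, fun θ r hθ hr => ?_⟩
  obtain ⟨⟨a1, a2, a3, a4, a5⟩, a6, a7⟩ := hall (y := (θ, r)) (by
    rw [Prod.dist_eq, max_lt_iff, Real.dist_eq, Real.dist_eq]
    exact ⟨by simpa using hθ, hr⟩)
  simp only at a1 a2 a3 a4 a5 a6 a7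
  have hPθ := hPw θ a1
  have hPside : P θ ∈ side A i := by
    have : P θ = p + (w θ : ℂ) * dir A i := by
      rw [← hdd, ← hPθ]
      ring
    rw [this]
    exact hside _ a2
  -- the reflected source
  have hsrc : P θ - p = -((s + t0 : ℝ) : ℂ) * refl A i u + (rr θ : ℂ) * refl A i (um θ) := by
    have e1 : refl A i (P θ - p) = P θ - p := by
      rw [hPθ, refl_real, hdd, refl_dir hA]
    rw [← e1]
    have e2 : P θ - p = ((-(s + t0) : ℝ) : ℂ) * u + (rr θ : ℂ) * um θ := by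
      simp only [hP, hY]
      push_cast
      ring
    rw [e2, refl_add, refl_real, refl_real]
    push_cast
    ring
  have hpt : p + t * refl A i u - (t1 : ℝ) * refl A i u + r * (refl A i u * exp (I * θ)) =
      P θ + ((r - rr θ : ℝ) : ℂ) * refl A i (um θ) := by
    have e1 : P θ = p + (P θ - p) := by ring
    rw [e1, hsrc, ← hRum θ, ht1]
    push_cast
    ring
  have hb1 := hf.bounce i (P θ) (um θ) s (r - rr θ) (humn θ) hPside hs a6 a3 a7
  have hb2 := hf.bounce i p u s t hu hp hs ht h1 h2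
  have hbeam := hB (-θ) (rr θ - s) a4 a5
  have hsrc2 : p - s * u - t0 * u + ((rr θ - s : ℝ) : ℂ) * (u * exp (I * ((-θ : ℝ) : ℂ))) =
      P θ - s * um θ := by
    simp only [hP, hY, hum]
    push_cast
    ring
  rw [hsrc2] at hbeam
  have hnorm : ‖exp (I * ((-θ : ℝ) : ℂ)) - 1‖ = ‖exp (I * (θ : ℂ)) - 1‖ := by
    have e1 : exp (I * ((-θ : ℝ) : ℂ)) - 1 = (starRingEnd ℂ) (exp (I * (θ : ℂ)) - 1) := by
      rw [map_sub, map_one, ← exp_conj, map_mul, conj_I, conj_ofReal]
      congr 2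
      push_cast
      ring
    rw [e1, Complex.norm_conj]
  rw [hnorm] at hbeam
  rw [hpt, ← hRum θ, hb1, hb2]
  refine le_trans (le_of_eq ?_) hbeam
  have e1 : ∀ F : ℂ, exp (-(I * ((lam * r : ℝ) : ℂ))) *
      (exp (I * ((lam * (s + (r - rr θ)) : ℝ) : ℂ)) * F) =
      exp (-(I * ((lam * (rr θ - s) : ℝ) : ℂ))) * F := by
    intro F
    rw [← mul_assoc, ← exp_add]
    congr 2
    push_cast
    ring
  have e2 : ∀ F : ℂ, exp (-(I * ((lam * t1 : ℝ) : ℂ))) *
      (exp (I * ((lam * (s + t) : ℝ) : ℂ)) * F) =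
      exp (-(I * ((lam * t0 : ℝ) : ℂ))) * F := by
    intro F
    rw [← mul_assoc, ← exp_add, ht1]
    congr 2
    push_cast
    ring
  rw [e1, e2]

end Vale.Agent.P099
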