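import Vale.Agent.P099.Good

/-! # P099, module CHAIN: the backward billiard path of a nonsingular point -/

set_option autoImplicit false

namespace Vale.Agent.P099

open Complex

/-- the state just after a reflection at `p ∈ side i` with outgoing direction `u`; `l` is the unfolding
word and `t` the time from `p` to `x` -/
structure St (A : Fin 3 → ℂ) (f : ℂ → ℂ → ℂ) (lam L : ℝ) (x U : ℂ) (p : ℂ) (i : Fin 3) (u : ℂ)
    (l : List (Fin 3)) (t : ℝ) : Prop where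
  hp : p ∈ side A i
  hu : ‖u‖ = 1
  hin : ∃ τ : ℝ, 0 < τ ∧ p + τ * u ∈ tri A
  good : Good A f lam L p u x U t
  pos : 0 < t
  pt : word A l p = x - t * U
  lin : wlin A l u = U

/-- start: `exit_tri` with direction `-U`, `good_init`, `l = []` -/
theorem st_init {A : Fin 3 → ℂ} (hA : AffineIndependent ℝ A) {f : ℂ → ℂ → ℂ} {lam L : ℝ}
    (hf : Eig A lam f) {x U : ℂ} (hx : x ∈ tri A) (hU : ‖U‖ = 1) (hS : x ∉ Sing A U) :
    ∃ p i t, St A f lam L x U p i U [] t := by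
  have hU0 : U ≠ 0 := by
    intro h
    rw [h, norm_zero] at hU
    exact zero_ne_one hU
  have e : ∀ τ : ℝ, x + (τ : ℂ) * (-U) = x - τ * U := fun τ => by ring
  obtain ⟨ℓ, hℓ, hend, hin⟩ := exit_tri hA hx (neg_ne_zero.2 hU0)
  have hin' : ∀ τ : ℝ, 0 ≤ τ → τ < ℓ → x - τ * U ∈ tri A := fun τ h0 h1 => by
    rw [← e]
    exact hin τ h0 h1
  rcases hend with ⟨j, hj⟩ | ⟨j, hj⟩
  · exact absurd ⟨[], j, ℓ, hℓ, by rw [← e, hj]; rfl⟩ hS
  · rw [e] at hj
    refine ⟨x - ℓ * U, j, ℓ, hj, hU, ⟨ℓ / 2, half_pos hℓ, ?_⟩, good_init hA hf hU hℓ hin', hℓ,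
      rfl, rfl⟩
    have h1 := hin' (ℓ / 2) (half_pos hℓ).le (half_lt_self hℓ)
    have h2 : x - (ℓ : ℂ) * U + ((ℓ / 2 : ℝ) : ℂ) * U = x - ((ℓ / 2 : ℝ) : ℂ) * U := by
      push_cast
      ring
    rw [h2]
    exact h1

/-- step: `inward_refl`, `exit_side` with direction `-refl A i u` (the vertex case contradicts `hS`: if
`p - τ refl A i u = A i` then `word A (l ++ [i]) (A i) = x - (t + τ) U`), `good_step`; the new word is
`l ++ [i]` -/
theorem st_step {A : Fin 3 → ℂ} (hA : AffineIndependent ℝ A) {f : ℂ → ℂ → ℂ} {lam L : ℝ}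
    (hf : Eig A lam f) {x U : ℂ} (hS : x ∉ Sing A U) {p : ℂ} {i : Fin 3} {u : ℂ}
    {l : List (Fin 3)} {t : ℝ} (h : St A f lam L x U p i u l t) :
    ∃ (j : Fin 3) (ℓ : ℝ), j ≠ i ∧ 0 < ℓ ∧
      St A f lam L x U (p - ℓ * refl A i u) j (refl A i u) (l ++ [i]) (t + ℓ) := by
  obtain ⟨v, hv⟩ : ∃ v, v = refl A i u := ⟨_, rfl⟩
  rw [← hv]
  have hvn : ‖v‖ = 1 := by rw [hv, norm_refl hA, h.hu]
  have hvv : refl A i v = u := by rw [hv, refl_refl hA]
  obtain ⟨τ0, hτ0, hin⟩ := h.hin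
  obtain ⟨τ1, hτ1, hτ⟩ := inward_refl hA h.hp τ0 hτ0 hin
  rw [← hv] at hτ
  have hin' : p + ((τ1 / 2 : ℝ) : ℂ) * (-v) ∈ tri A := by
    have h1 := hτ (τ1 / 2) (half_pos hτ1) (half_lt_self hτ1)
    have h2 : p + ((τ1 / 2 : ℝ) : ℂ) * (-v) = p - ((τ1 / 2 : ℝ) : ℂ) * v := by ring
    rw [h2]
    exact h1
  obtain ⟨ℓ, hℓ, hend, hseg⟩ := exit_side hA h.hp (τ1 / 2) (half_pos hτ1) hin'
  have hneg : ∀ τ : ℝ, p + (τ : ℂ) * (-v) = p - (τ : ℂ) * v := fun τ => by ring
  have hseg' : ∀ τ : ℝ, 0 < τ → τ < ℓ → p - τ * v ∈ tri A := fun τ h1 h2 => by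
    rw [← hneg]
    exact hseg τ h1 h2
  have hword : word A (l ++ [i]) (p - ℓ * v) = x - ((t + ℓ : ℝ) : ℂ) * U := by
    rw [word_append]
    have h1 : word A [i] (p - ℓ * v) = p + ((-ℓ : ℝ) : ℂ) * u := by
      show rho A i (p - ℓ * v) = _
      have h2 : p - (ℓ : ℂ) * v = p + ((-ℓ : ℝ) : ℂ) * v := by
        push_cast
        ring
      rw [h2, rho_add, rho_side hA h.hp, refl_real, hvv]
    rw [h1, word_add, wlin_real, h.pt, h.lin]
    push_cast
    ring
  have hlin : wlin A (l ++ [i]) v = U := by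
    rw [wlin_append]
    show wlin A l (refl A i v) = U
    rw [hvv, h.lin]
  rcases hend with hend | ⟨j, hj, hend⟩
  · exfalso
    rw [hneg] at hend
    rw [hend] at hword
    exact hS ⟨l ++ [i], i, t + ℓ, by linarith [h.pos], hword.symm⟩
  · rw [hneg] at hend
    refine ⟨j, ℓ, hj, hℓ, ?_⟩
    exact
      { hp := hend
        hu := hvn
        hin := ⟨ℓ / 2, half_pos hℓ, by
          have h1 := hseg' (ℓ / 2) (half_pos hℓ) (half_lt_self hℓ)
          have h2 : p - (ℓ : ℂ) * v + ((ℓ / 2 : ℝ) : ℂ) * v = p - ((ℓ / 2 : ℝ) : ℂ) * v := by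
            push_cast
            ring
          rw [h2]
          exact h1⟩
        good := by
          have h1 := good_step hA hf h.hu h.hp h.good hℓ (by rw [← hv]; exact hseg')
          rw [← hv] at h1
          exact h1
        pos := by linarith [h.pos]
        pt := hword
        lin := hlin }

end Vale.Agent.P099
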