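import Mathlib

/-!
# P099: billiards in irrational triangles: definitions

A triangle in the complex plane is given by its vertices `A : Fin 3 → ℂ`.
-/

set_option autoImplicit false

namespace Vale.Agent.P099

open Complex

/-- the open triangle: the strictly positive convex combinations of the vertices -/
def tri (A : Fin 3 → ℂ) : Set ℂ :=
  {z | ∃ w : Fin 3 → ℝ, (∀ i, 0 < w i) ∧ ∑ i, w i = 1 ∧ z = ∑ i, (w i : ℂ) * A i}

/-- the open side opposite to the vertex `A i` -/
def side (A : Fin 3 → ℂ) (i : Fin 3) : Set ℂ :=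
  {z | ∃ w : Fin 3 → ℝ, w i = 0 ∧ (∀ j, j ≠ i → 0 < w j) ∧ ∑ j, w j = 1 ∧
    z = ∑ j, (w j : ℂ) * A j}

/-- the direction of the side opposite to the vertex `A i` -/
def dir (A : Fin 3 → ℂ) (i : Fin 3) : ℂ := A (i + 1) - A (i + 2)

/-- specular reflection of directions at the side opposite to `A i`: the tangential component is
kept, the normal component is reversed -/
noncomputable def refl (A : Fin 3 → ℂ) (i : Fin 3) (u : ℂ) : ℂ :=
  dir A i / (starRingEnd ℂ) (dir A i) * (starRingEnd ℂ) u

/-- `f` is an eigenfunction with eigenvalue `lam` of the billiard flow in the open triangle: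
`f` is multiplied by `exp (i lam t)` along every piece of billiard trajectory of duration `t`
(free motion inside the triangle, and one specular reflection at an open side).
For `lam = 0` : `f` is invariant under the billiard flow. -/
structure Eig (A : Fin 3 → ℂ) (lam : ℝ) (f : ℂ → ℂ → ℂ) : Prop where
  free : ∀ (x u : ℂ) (t : ℝ), ‖u‖ = 1 → x ∈ tri A → x + t * u ∈ tri A →
    f (x + t * u) u = exp (I * (lam * t : ℝ)) * f x u
  bounce : ∀ (i : Fin 3) (p u : ℂ) (s t : ℝ), ‖u‖ = 1 → p ∈ side A i → 0 < s → 0 < t →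
    p - s * u ∈ tri A → p + t * refl A i u ∈ tri A →
    f (p + t * refl A i u) (refl A i u) = exp (I * (lam * (s + t) : ℝ)) * f (p - s * u) u

/-- `f` is Lipschitz in the direction variable, uniformly in the position -/
def LipDir (A : Fin 3 → ℂ) (L : ℝ) (f : ℂ → ℂ → ℂ) : Prop :=
  ∀ x ∈ tri A, ∀ u v : ℂ, ‖u‖ = 1 → ‖v‖ = 1 → ‖f x u - f x v‖ ≤ L * ‖u - v‖

/-! ## auxiliary notions of the proof -/

/-- the affine reflection in the side opposite to `A i` -/
noncomputable def rho (A : Fin 3 → ℂ) (i : Fin 3) (z : ℂ) : ℂ :=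
  A (i + 1) + refl A i (z - A (i + 1))

/-- compositions of the affine reflections along a word -/
noncomputable def word (A : Fin 3 → ℂ) : List (Fin 3) → ℂ → ℂ
  | [], z => z
  | i :: l, z => rho A i (word A l z)

/-- linear parts of `word` -/
noncomputable def wlin (A : Fin 3 → ℂ) : List (Fin 3) → ℂ → ℂ
  | [], u => u
  | i :: l, u => refl A i (wlin A l u)

/-- the beam condition: all rays issued from the virtual source `x - t u` in directions close to
`u`, followed for a time close to `t`, give values of `f` close to the one at `(x, u)` -/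
def Beam (f : ℂ → ℂ → ℂ) (lam L : ℝ) (x u : ℂ) (t : ℝ) : Prop :=
  ∃ ε > 0, ∀ θ r : ℝ, |θ| < ε → |r - t| < ε →
    ‖exp (-(I * (lam * r : ℝ))) * f (x - t * u + r * (u * exp (I * θ))) (u * exp (I * θ)) -
      exp (-(I * (lam * t : ℝ))) * f x u‖ ≤ L * ‖exp (I * θ) - 1‖

/-- transport of the beam condition -/
def Tr (f : ℂ → ℂ → ℂ) (lam L : ℝ) (x u x' u' : ℂ) (t : ℝ) : Prop :=
  ∀ t0, Beam f lam L x u t0 → Beam f lam L x' u' (t0 + t)

/-- the backward ray from `x` in direction `-u` hits an unfolded vertex -/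
def Sing (A : Fin 3 → ℂ) (u : ℂ) : Set ℂ :=
  {x | ∃ (l : List (Fin 3)) (j : Fin 3) (τ : ℝ), 0 < τ ∧ x - τ * u = word A l (A j)}

end Vale.Agent.P099
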