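import Vale.Agent.P099.Refl

/-! # P099, module DENSE: the composition of two reflections is an irrational rotation

`refl A j (refl A k u) = (dir A j / conj (dir A j)) * (conj (dir A k) / dir A k) * u = e^{± 2 i γ} u`, `γ` the angle
at `A i` (`j = i+1`, `k = i+2`: both sides contain `A i`, `dir A j = A (i+2) - A i`, `dir A k = A i - A (i+1)`). The powers of a
rotation by an irrational multiple of `2π` are dense in the circle (Mathlib: `AddCircle`, dense subgroups of `ℝ`,
`AddSubgroup.dense_or_cyclic` / `dense_addSubgroupClosure_pair_iff`), and a continuous function on the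
circle invariant under them is constant. -/

set_option autoImplicit false

namespace Vale.Agent.P099

open Complex

/-- a continuous function on the circle invariant under an irrational rotation is constant -/
theorem DENSE_circle (φ : ℂ → ℂ) (hφ : ContinuousOn φ {u : ℂ | ‖u‖ = 1}) {θ : ℝ}
    (hθ : Irrational (θ / Real.pi))
    (hinv : ∀ u : ℂ, ‖u‖ = 1 → φ (exp (I * ((2 * θ : ℝ) : ℂ)) * u) = φ u) :
    ∀ u v : ℂ, ‖u‖ = 1 → ‖v‖ = 1 → φ u = φ v := by
  have hdense : Dense ((AddSubgroup.closure {2 * θ, 2 * Real.pi} : AddSubgroup ℝ) : Set ℝ) := by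
    rw [dense_addSubgroupClosure_pair_iff]
    rwa [mul_div_mul_left _ _ (two_ne_zero)]
  have hn : ∀ (x : ℝ) (u : ℂ), ‖u‖ = 1 → ‖exp (I * (x : ℂ)) * u‖ = 1 := by
    intro x u hu
    rw [norm_mul, hu, mul_one, mul_comm, Complex.norm_exp_ofReal_mul_I]
  have hP : ∀ x ∈ (AddSubgroup.closure {2 * θ, 2 * Real.pi} : AddSubgroup ℝ), ∀ u : ℂ, ‖u‖ = 1 →
      φ (exp (I * (x : ℂ)) * u) = φ u := by
    intro x hx
    induction hx using AddSubgroup.closure_induction with
    | mem x hx =>
      intro u hu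
      rcases hx with rfl | hx
      · exact hinv u hu
      · rw [Set.mem_singleton_iff] at hx
        subst hx
        have : exp (I * ((2 * Real.pi : ℝ) : ℂ)) = 1 := by
          rw [show I * ((2 * Real.pi : ℝ) : ℂ) = 2 * Real.pi * I by push_cast; ring]
          exact Complex.exp_two_pi_mul_I
        rw [this, one_mul]
    | zero =>
      intro u hu
      simp
    | add x y _ _ hx hy =>
      intro u hu
      have : exp (I * ((x + y : ℝ) : ℂ)) * u = exp (I * (x : ℂ)) * (exp (I * (y : ℂ)) * u) := by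
        rw [← mul_assoc, ← Complex.exp_add]
        congr 2
        push_cast
        ring
      rw [this, hx _ (hn y u hu), hy u hu]
    | neg x _ hx =>
      intro u hu
      have h1 := hx (exp (I * ((-x : ℝ) : ℂ)) * u) (hn _ u hu)
      rw [← h1, ← mul_assoc, ← Complex.exp_add]
      congr 1
      have : I * (x : ℂ) + I * ((-x : ℝ) : ℂ) = 0 := by push_cast; ring
      rw [this, Complex.exp_zero, one_mul]
  intro u v hu hv
  have hcont : Continuous fun t : ℝ => φ (exp (I * (t : ℂ)) * u) := by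
    refine hφ.comp_continuous (by fun_prop) fun t => hn t u hu
  have heq : (fun t : ℝ => φ (exp (I * (t : ℂ)) * u)) = fun _ => φ u :=
    Continuous.ext_on hdense hcont continuous_const fun x hx => hP x hx u hu
  have hu0 : u ≠ 0 := by
    rintro rfl
    simp at hu
  have h1 : exp (I * ((arg (v / u) : ℝ) : ℂ)) * u = v := by
    have h2 := Complex.norm_mul_exp_arg_mul_I (v / u)
    rw [norm_div, hu, hv, div_one, Complex.ofReal_one, one_mul] at h2
    rw [mul_comm I, h2, div_mul_cancel₀ _ hu0]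
  have h2 := congrFun heq (arg (v / u))
  simp only [h1] at h2
  exact h2.symm

theorem DENSE_rot {v w : ℂ} (hv : v ≠ 0) (hw : w ≠ 0) :
    v / (starRingEnd ℂ) v * (starRingEnd ℂ) (w / (starRingEnd ℂ) w) =
      exp (I * ((2 * arg (v / w) : ℝ) : ℂ)) := by
  have hcv : (starRingEnd ℂ) v ≠ 0 := (map_ne_zero _).2 hv
  have hcw : (starRingEnd ℂ) w ≠ 0 := (map_ne_zero _).2 hw
  have h1 := Complex.norm_mul_exp_arg_mul_I (v / w)
  have hz : v / w ≠ 0 := div_ne_zero hv hw
  have hnz : ((‖v / w‖ : ℝ) : ℂ) ≠ 0 := by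
    exact_mod_cast norm_ne_zero_iff.2 hz
  have h2 : (starRingEnd ℂ) (v / w) = ((‖v / w‖ : ℝ) : ℂ) * exp (-(arg (v / w) * I)) := by
    conv_lhs => rw [← h1]
    rw [map_mul, Complex.conj_ofReal, ← Complex.exp_conj, map_mul, Complex.conj_ofReal,
      Complex.conj_I, mul_neg]
  have h3 : v / (starRingEnd ℂ) v * (starRingEnd ℂ) (w / (starRingEnd ℂ) w) =
      (v / w) / (starRingEnd ℂ) (v / w) := by
    rw [map_div₀, map_div₀, Complex.conj_conj]
    field_simp
  rw [h3, h2]
  nth_rewrite 1 [← h1]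
  rw [mul_div_mul_left _ _ hnz, ← Complex.exp_sub]
  congr 1
  push_cast
  ring

theorem dense_rot {A : Fin 3 → ℂ} (hA : AffineIndependent ℝ A)
    (hirr : ∃ i, Irrational (EuclideanGeometry.angle (A (i + 1)) (A i) (A (i + 2)) / Real.pi))
    (φ : ℂ → ℂ) (hφ : ContinuousOn φ {u : ℂ | ‖u‖ = 1})
    (hinv : ∀ i : Fin 3, ∀ u : ℂ, ‖u‖ = 1 → φ (refl A i u) = φ u) :
    ∀ u v : ℂ, ‖u‖ = 1 → ‖v‖ = 1 → φ u = φ v := by
  obtain ⟨i, hi⟩ := hirr
  have hj : dir A (i + 1) = A (i + 2) - A i := by
    unfold dir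
    congr 1
    · congr 1
      rw [add_assoc]
      rfl
    · congr 1
      rw [add_assoc]
      have : (1 : Fin 3) + 2 = 0 := rfl
      rw [this, add_zero]
  have hk : dir A (i + 2) = A i - A (i + 1) := by
    unfold dir
    congr 1
    · congr 1
      rw [add_assoc]
      have : (2 : Fin 3) + 1 = 0 := rfl
      rw [this, add_zero]
    · congr 1
      rw [add_assoc]
      have : (2 : Fin 3) + 2 = 1 := rfl
      rw [this]
  have hv0 := dir_ne hA (i + 1)
  have hw0 := dir_ne hA (i + 2)
  have hw0' : A (i + 1) - A i ≠ 0 := by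
    rw [hk] at hw0
    exact sub_ne_zero.2 (sub_ne_zero.1 hw0).symm
  rw [hj] at hv0
  have hang : EuclideanGeometry.angle (A (i + 1)) (A i) (A (i + 2)) =
      |arg ((A (i + 2) - A i) / (A (i + 1) - A i))| := by
    rw [EuclideanGeometry.angle_comm, EuclideanGeometry.angle, vsub_eq_sub, vsub_eq_sub,
      Complex.angle_eq_abs_arg hv0 hw0']
  have hirr' : Irrational (arg ((A (i + 2) - A i) / (A (i + 1) - A i)) / Real.pi) := by
    rw [hang] at hi
    rcases abs_choice (arg ((A (i + 2) - A i) / (A (i + 1) - A i))) with h | h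
    · rwa [h] at hi
    · rw [h, neg_div] at hi
      exact irrational_neg_iff.1 hi
  refine DENSE_circle φ hφ hirr' fun u hu => ?_
  have h1 := hinv (i + 1) (refl A (i + 2) u) (by rw [norm_refl hA, hu])
  rw [hinv (i + 2) u hu] at h1
  rw [← h1]
  congr 1
  rw [← DENSE_rot hv0 hw0']
  have h2 : refl A (i + 2) u = (A (i + 1) - A i) / (starRingEnd ℂ) (A (i + 1) - A i) *
      (starRingEnd ℂ) u := by
    rw [refl, hk, ← neg_sub (A (i + 1)) (A i), map_neg, neg_div_neg_eq]
  rw [h2, refl, hj, map_mul, Complex.conj_conj]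
  ring

end Vale.Agent.P099
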