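import Vale.Agent.P099.Refl

/-! # P099, module EXIT: rays leave the triangle through an open side or a vertex

Use the weights `W` of `exists_weight`: along the ray they are `w_j + τ a_j` with `∑ a_j = 0`.
The exit time is the minimum of `w_j / (-a_j)` over `a_j < 0` (nonempty since not all `a_j` vanish). -/

set_option autoImplicit false

namespace Vale.Agent.P099

open Complex

theorem EX1_tri {A : Fin 3 → ℂ} {W : Fin 3 → ℂ → ℝ} (h1 : ∀ z, ∑ i, W i z = 1)
    (h2 : ∀ z, z = ∑ i, (W i z : ℂ) * A i)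
    (h3 : ∀ (w : Fin 3 → ℝ), ∑ i, w i = 1 → ∀ i, W i (∑ j, (w j : ℂ) * A j) = w i) (z : ℂ) :
    z ∈ tri A ↔ ∀ j, 0 < W j z := by
  constructor
  · rintro ⟨w, hw, hs, hz⟩ j
    rw [hz, h3 w hs j]
    exact hw j
  · intro h
    exact ⟨fun j => W j z, h, h1 z, h2 z⟩

theorem EX1_side {A : Fin 3 → ℂ} {W : Fin 3 → ℂ → ℝ} (h1 : ∀ z, ∑ i, W i z = 1)
    (h2 : ∀ z, z = ∑ i, (W i z : ℂ) * A i)
    (h3 : ∀ (w : Fin 3 → ℝ), ∑ i, w i = 1 → ∀ i, W i (∑ j, (w j : ℂ) * A j) = w i) (i : Fin 3)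
    (z : ℂ) : z ∈ side A i ↔ W i z = 0 ∧ ∀ j, j ≠ i → 0 < W j z := by
  constructor
  · rintro ⟨w, hw0, hw, hs, hz⟩
    refine ⟨?_, fun j hj => ?_⟩
    · rw [hz, h3 w hs i]
      exact hw0
    · rw [hz, h3 w hs j]
      exact hw j hj
  · rintro ⟨h, h'⟩
    exact ⟨fun j => W j z, h, h', h1 z, h2 z⟩

theorem EX1_fin : ∀ i j k l : Fin 3, j ≠ i → k ≠ i → k ≠ j → l ≠ i → l ≠ j → l = k := by
  decide

/-- from a point of an open side, in a direction pointing inside -/
theorem exit_side {A : Fin 3 → ℂ} (hA : AffineIndependent ℝ A) {p u : ℂ} {i : Fin 3}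
    (hp : p ∈ side A i) (τ0 : ℝ) (hτ0 : 0 < τ0) (hin : p + τ0 * u ∈ tri A) :
    (∃ ℓ > 0, (p + (ℓ : ℝ) * u = A i ∨ ∃ j, j ≠ i ∧ p + (ℓ : ℝ) * u ∈ side A j) ∧
      ∀ τ : ℝ, 0 < τ → τ < ℓ → p + τ * u ∈ tri A) := by
  obtain ⟨W, -, hlin, h1, h2, h3⟩ := exists_weight hA
  have htri := EX1_tri h1 h2 h3
  have hside := EX1_side h1 h2 h3
  obtain ⟨hpi, hpj⟩ := (hside i p).1 hp
  have hin' := (htri _).1 hin
  obtain ⟨a, ha⟩ : ∃ a : Fin 3 → ℝ, a = fun j => W j (p + u) - W j p := ⟨_, rfl⟩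
  have hW : ∀ j (τ : ℝ), W j (p + τ * u) = W j p + τ * a j := by
    intro j τ
    rw [hlin j p u τ, ha]
  have hai : 0 < a i := by
    have h := hin' i
    rw [hW, hpi, zero_add] at h
    exact (mul_pos_iff_of_pos_left hτ0).1 h
  have hsum : ∑ j, a j = 0 := by
    rw [ha, Finset.sum_sub_distrib, h1, h1, sub_self]
  obtain ⟨j0, hj0⟩ : ∃ j, a j < 0 := by
    by_contra hcon
    have hnn : ∀ j, 0 ≤ a j := fun j => not_lt.1 fun h => hcon ⟨j, h⟩
    have : a i ≤ ∑ j, a j := Finset.single_le_sum (fun j _ => hnn j) (Finset.mem_univ i)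
    linarith
  obtain ⟨m, hm, hmin⟩ := Finset.exists_min_image (Finset.univ.filter fun j => a j < 0)
    (fun j => W j p / (-(a j))) ⟨j0, by simp [hj0]⟩
  have ham : a m < 0 := (Finset.mem_filter.1 hm).2
  have hmi : m ≠ i := fun h => by rw [h] at ham; linarith
  obtain ⟨ℓ, hℓ⟩ : ∃ ℓ, ℓ = W m p / (-(a m)) := ⟨_, rfl⟩
  have hℓ0 : 0 < ℓ := by
    rw [hℓ]
    exact div_pos (hpj m hmi) (by linarith)
  have hWm : W m (p + (ℓ : ℝ) * u) = 0 := by
    have hne : a m ≠ 0 := ham.ne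
    rw [hW, hℓ]
    field_simp
    ring
  have hWnn : ∀ j, 0 ≤ W j (p + (ℓ : ℝ) * u) := by
    intro j
    rw [hW]
    by_cases hj : a j < 0
    · have h := hmin j (by simp [hj])
      rw [← hℓ, le_div_iff₀ (by linarith)] at h
      linarith
    · have h0 : 0 ≤ W j p := by
        by_cases hji : j = i
        · rw [hji, hpi]
        · exact (hpj j hji).le
      have := mul_nonneg hℓ0.le (not_lt.1 hj)
      linarith
  have hWi : 0 < W i (p + (ℓ : ℝ) * u) := by
    rw [hW, hpi, zero_add]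
    exact mul_pos hℓ0 hai
  refine ⟨ℓ, hℓ0, ?_, ?_⟩
  · by_cases hall : ∀ k, k ≠ i → W k (p + (ℓ : ℝ) * u) = 0
    · left
      have e1 : W i (p + (ℓ : ℝ) * u) = 1 := by
        rw [← h1 (p + (ℓ : ℝ) * u)]
        exact (Finset.sum_eq_single i (fun k _ hk => hall k hk) (fun h => absurd
          (Finset.mem_univ i) h)).symm
      have e2 : ∑ k, (W k (p + (ℓ : ℝ) * u) : ℂ) * A k =
          (W i (p + (ℓ : ℝ) * u) : ℂ) * A i := by
        refine Finset.sum_eq_single i (fun k _ hk => ?_) (fun h => absurd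
          (Finset.mem_univ i) h)
        rw [hall k hk, Complex.ofReal_zero, zero_mul]
      have e3 := h2 (p + (ℓ : ℝ) * u)
      rw [e2, e1, Complex.ofReal_one, one_mul] at e3
      exact e3
    · right
      obtain ⟨k, hk⟩ := not_forall.1 hall
      rw [Classical.not_imp] at hk
      obtain ⟨hki, hk0⟩ := hk
      have hkm : k ≠ m := fun h => hk0 (by rw [h]; exact hWm)
      refine ⟨m, hmi, (hside m _).2 ⟨hWm, fun l hl => ?_⟩⟩
      by_cases hli : l = i
      · rw [hli]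
        exact hWi
      · rw [EX1_fin i m k l hmi hki hkm hli hl]
        exact lt_of_le_of_ne (hWnn k) (Ne.symm hk0)
  · intro τ hτ hτℓ
    rw [htri]
    intro j
    rw [hW]
    by_cases hji : j = i
    · rw [hji, hpi, zero_add]
      exact mul_pos hτ hai
    · have hwj := hpj j hji
      by_cases hj : a j < 0
      · have h := hmin j (by simp [hj])
        rw [← hℓ, le_div_iff₀ (by linarith)] at h
        nlinarith
      · have := mul_nonneg hτ.le (not_lt.1 hj)
        linarith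

theorem EX2_end {A : Fin 3 → ℂ} {v : Fin 3 → ℝ} {z : ℂ} (hv : ∀ i, 0 ≤ v i) (hs : ∑ i, v i = 1)
    (hz : z = ∑ i, (v i : ℂ) * A i) {i : Fin 3} (hi : v i = 0) :
    (∃ j, z = A j) ∨ ∃ j, z ∈ side A j := by
  by_cases h : ∀ j, j ≠ i → 0 < v j
  · exact Or.inr ⟨i, v, hi, h, hs, hz⟩
  · push Not at h
    obtain ⟨j, hji, hj⟩ := h
    have hj0 : v j = 0 := le_antisymm hj (hv j)
    rw [Fin.sum_univ_three] at hs hz
    left
    fin_cases i <;> fin_cases j <;> simp only [Fin.zero_eta, Fin.mk_one, Fin.reduceFinMk] at hi hj0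
    · exact absurd rfl hji
    · refine ⟨2, ?_⟩
      have h2 : v 2 = 1 := by linarith
      rw [hz, hi, hj0, h2]
      simp
    · refine ⟨1, ?_⟩
      have h2 : v 1 = 1 := by linarith
      rw [hz, hi, hj0, h2]
      simp
    · refine ⟨2, ?_⟩
      have h2 : v 2 = 1 := by linarith
      rw [hz, hi, hj0, h2]
      simp
    · exact absurd rfl hji
    · refine ⟨0, ?_⟩
      have h2 : v 0 = 1 := by linarith
      rw [hz, hi, hj0, h2]
      simp
    · refine ⟨1, ?_⟩
      have h2 : v 1 = 1 := by linarith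
      rw [hz, hi, hj0, h2]
      simp
    · refine ⟨0, ?_⟩
      have h2 : v 0 = 1 := by linarith
      rw [hz, hi, hj0, h2]
      simp
    · exact absurd rfl hji

/-- from an interior point -/
theorem exit_tri {A : Fin 3 → ℂ} (hA : AffineIndependent ℝ A) {x u : ℂ} (hx : x ∈ tri A)
    (hu : u ≠ 0) :
    (∃ ℓ > 0, ((∃ j, x + (ℓ : ℝ) * u = A j) ∨ ∃ j, x + (ℓ : ℝ) * u ∈ side A j) ∧
      ∀ τ : ℝ, 0 ≤ τ → τ < ℓ → x + τ * u ∈ tri A) := by
  obtain ⟨W, -, hWa, hW1, hWz, hWw⟩ := exists_weight hA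
  have hpos : ∀ i, 0 < W i x := by
    obtain ⟨w, hw, hw1, hxw⟩ := hx
    intro i
    rw [hxw, hWw w hw1 i]
    exact hw i
  obtain ⟨a, ha⟩ : ∃ a : Fin 3 → ℝ, a = fun i => W i (x + u) - W i x := ⟨_, rfl⟩
  have hWt : ∀ i (t : ℝ), W i (x + t * u) = W i x + t * a i := by
    intro i t
    rw [ha]
    exact hWa i x u t
  have hasum : ∑ i, a i = 0 := by
    rw [ha, Finset.sum_sub_distrib, hW1, hW1, sub_self]
  have hex : ∃ i, a i < 0 := by
    by_contra hcon
    push Not at hcon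
    have h0 : ∀ i, a i = 0 := fun i =>
      (Finset.sum_eq_zero_iff_of_nonneg (fun j _ => hcon j)).1 hasum i (Finset.mem_univ i)
    apply hu
    have h1 : x + u = x := by
      have h2 := hWz (x + u)
      have h3 : ∀ i, W i (x + u) = W i x := by
        intro i
        have h4 := h0 i
        rw [ha] at h4
        simp only at h4
        linarith
      simp_rw [h3] at h2
      rw [h2]
      exact (hWz x).symm
    simpa using h1
  obtain ⟨i0, hi0, hmin⟩ := Finset.exists_min_image (Finset.univ.filter fun i => a i < 0)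
    (fun i => W i x / (-(a i))) (by
      obtain ⟨i, hi⟩ := hex
      exact ⟨i, by simpa using hi⟩)
  rw [Finset.mem_filter] at hi0
  have hai0 : a i0 < 0 := hi0.2
  have hmin' : ∀ i, a i < 0 → W i0 x / (-(a i0)) ≤ W i x / (-(a i)) := fun i hi =>
    hmin i (by simpa using hi)
  obtain ⟨ℓ, hℓ⟩ : ∃ ℓ, ℓ = W i0 x / (-(a i0)) := ⟨_, rfl⟩
  rw [← hℓ] at hmin'
  have hℓ0 : 0 < ℓ := by
    rw [hℓ]
    exact div_pos (hpos i0) (by linarith)
  have hℓeq : W i0 x + ℓ * a i0 = 0 := by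
    rw [hℓ]
    have : a i0 ≠ 0 := hai0.ne
    field_simp
    ring
  refine ⟨ℓ, hℓ0, ?_, ?_⟩
  · refine EX2_end (v := fun i => W i (x + (ℓ : ℝ) * u)) (fun i => ?_) (hW1 _) (hWz _) (i := i0) ?_
    · show 0 ≤ W i (x + (ℓ : ℝ) * u)
      rw [hWt]
      rcases lt_or_ge (a i) 0 with hi | hi
      · have h1 := hmin' i hi
        rw [le_div_iff₀ (by linarith)] at h1
        linarith
      · have := hpos i
        positivity
    · show W i0 (x + (ℓ : ℝ) * u) = 0
      rw [hWt]
      exact hℓeq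
  · intro τ hτ0 hτ
    refine ⟨fun i => W i (x + (τ : ℝ) * u), fun i => ?_, hW1 _, hWz _⟩
    show 0 < W i (x + (τ : ℝ) * u)
    rw [hWt]
    rcases lt_or_ge (a i) 0 with hi | hi
    · have h1 := lt_of_lt_of_le hτ (hmin' i hi)
      rw [lt_div_iff₀ (by linarith)] at h1
      linarith
    · have := hpos i
      positivity

/-- reflection exchanges incoming and outgoing directions: the normal component
`cr (dir A i) (refl A i u) = - cr (dir A i) u` is reversed, and from a point of the open side all directions with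
`cr (dir A i) u` of the right sign point inside -/
theorem EX3_refl {A : Fin 3 → ℂ} (hA : AffineIndependent ℝ A) (i : Fin 3) (u : ℂ) :
    ∃ c : ℝ, refl A i u = -u + c * dir A i := by
  have hd := dir_ne hA i
  have hd' : (starRingEnd ℂ) (dir A i) ≠ 0 := (map_ne_zero _).2 hd
  refine ⟨2 * (u * (starRingEnd ℂ) (dir A i)).re / Complex.normSq (dir A i), ?_⟩
  have h1 : ((2 * (u * (starRingEnd ℂ) (dir A i)).re : ℝ) : ℂ) =
      u * (starRingEnd ℂ) (dir A i) + (starRingEnd ℂ) u * dir A i := by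
    have h2 := Complex.add_conj (u * (starRingEnd ℂ) (dir A i))
    rw [map_mul, Complex.conj_conj] at h2
    rw [h2]
  have h3 : ((Complex.normSq (dir A i) : ℝ) : ℂ) = dir A i * (starRingEnd ℂ) (dir A i) :=
    (Complex.mul_conj _).symm
  rw [Complex.ofReal_div, h1, h3]
  unfold refl
  field_simp
  ring

theorem inward_refl {A : Fin 3 → ℂ} (hA : AffineIndependent ℝ A) {p u : ℂ} {i : Fin 3}
    (hp : p ∈ side A i) (τ0 : ℝ) (hτ0 : 0 < τ0) (hin : p + τ0 * u ∈ tri A) :
    ∃ τ1 > 0, ∀ τ : ℝ, 0 < τ → τ < τ1 → p - τ * refl A i u ∈ tri A := by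
  obtain ⟨w, hi, hw, hws, rfl⟩ := hp
  obtain ⟨v, hv, hvs, hv2⟩ := hin
  obtain ⟨c, hc⟩ := EX3_refl hA i u
  have h1 : i ≠ i + 1 := by fin_cases i <;> decide
  have h2 : i ≠ i + 2 := by fin_cases i <;> decide
  have h3 : i + 1 ≠ i + 2 := by fin_cases i <;> decide
  obtain ⟨e, he⟩ : ∃ e : Fin 3 → ℝ, e = fun j => (if j = i + 1 then 1 else 0) -
      (if j = i + 2 then 1 else 0) := ⟨_, rfl⟩
  have hes : ∑ j, e j = 0 := by
    rw [he, Finset.sum_sub_distrib, Finset.sum_ite_eq' Finset.univ (i + 1),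
      Finset.sum_ite_eq' Finset.univ (i + 2)]
    simp
  have hed : ∑ j, (e j : ℂ) * A j = dir A i := by
    rw [he]
    unfold dir
    simp only [Complex.ofReal_sub, sub_mul, Finset.sum_sub_distrib]
    congr 1
    · rw [Finset.sum_eq_single (i + 1)]
      · simp
      · intro b _ hb
        rw [if_neg hb]
        simp
      · intro h
        exact absurd (Finset.mem_univ _) h
    · rw [Finset.sum_eq_single (i + 2)]
      · simp
      · intro b _ hb
        rw [if_neg hb]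
        simp
      · intro h
        exact absurd (Finset.mem_univ _) h
  obtain ⟨b, hb⟩ : ∃ b : Fin 3 → ℝ, b = fun j => (v j - w j) / τ0 - c * e j := ⟨_, rfl⟩
  have hbs : ∑ j, b j = 0 := by
    rw [hb, Finset.sum_sub_distrib, ← Finset.sum_div, Finset.sum_sub_distrib, hvs, hws,
      ← Finset.mul_sum, hes]
    simp
  have hτ0' : (τ0 : ℂ) ≠ 0 := by exact_mod_cast hτ0.ne'
  have hbd : ∑ j, (b j : ℂ) * A j = u - c * dir A i := by
    have e1 : ∑ j, (b j : ℂ) * A j = ((∑ j, (v j : ℂ) * A j) - ∑ j, (w j : ℂ) * A j) / τ0 -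
        c * ∑ j, (e j : ℂ) * A j := by
      rw [hb, Finset.mul_sum, ← Finset.sum_sub_distrib, Finset.sum_div, ← Finset.sum_sub_distrib]
      refine Finset.sum_congr rfl fun j _ => ?_
      push_cast
      field_simp
    rw [e1, hed, ← hv2]
    field_simp
    ring
  have hbi : 0 < b i := by
    have e1 : b i = v i / τ0 := by
      rw [hb, he]
      simp only [if_neg h1, if_neg h2, hi]
      ring
    rw [e1]
    exact div_pos (hv i) hτ0
  obtain ⟨τ1, hτ1, hτ2⟩ : ∃ τ1 : ℝ, 0 < τ1 ∧ ∀ j, j ≠ i → τ1 * |b j| ≤ w j := by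
    have key : ∀ j, j ≠ i → ∃ s : ℝ, 0 < s ∧ s * |b j| ≤ w j := by
      intro j hj
      refine ⟨w j / (|b j| + 1), div_pos (hw j hj) (by positivity), ?_⟩
      rw [div_mul_eq_mul_div, div_le_iff₀ (by positivity)]
      nlinarith [hw j hj, abs_nonneg (b j)]
    obtain ⟨s1, hs1, hs1'⟩ := key (i + 1) h1.symm
    obtain ⟨s2, hs2, hs2'⟩ := key (i + 2) h2.symm
    refine ⟨min s1 s2, lt_min hs1 hs2, fun j hj => ?_⟩
    have hall : j = i ∨ j = i + 1 ∨ j = i + 2 := by
      clear * -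
      revert i j
      decide
    rcases hall with h | h | h
    · exact absurd h hj
    · rw [h]
      exact (mul_le_mul_of_nonneg_right (min_le_left _ _) (abs_nonneg _)).trans hs1'
    · rw [h]
      exact (mul_le_mul_of_nonneg_right (min_le_right _ _) (abs_nonneg _)).trans hs2'
  refine ⟨τ1, hτ1, fun τ h0 hlt => ⟨fun j => w j + τ * b j, fun j => ?_, ?_, ?_⟩⟩
  · show 0 < w j + τ * b j
    by_cases hj : j = i
    · rw [hj, hi, zero_add]
      exact mul_pos h0 hbi
    · have e1 : -(τ * b j) ≤ τ * |b j| := by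
        have := neg_abs_le (b j)
        nlinarith
      by_cases hb0 : b j = 0
      · rw [hb0, mul_zero, add_zero]
        exact hw j hj
      · have e2 : τ * |b j| < τ1 * |b j| := mul_lt_mul_of_pos_right hlt (abs_pos.2 hb0)
        have e3 := hτ2 j hj
        linarith
  · rw [Finset.sum_add_distrib, ← Finset.mul_sum, hbs, hws]
    ring
  · have e1 : ∑ j, ((w j + τ * b j : ℝ) : ℂ) * A j =
        (∑ j, (w j : ℂ) * A j) + τ * ∑ j, (b j : ℂ) * A j := by
      rw [Finset.mul_sum, ← Finset.sum_add_distrib]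
      refine Finset.sum_congr rfl fun j _ => ?_
      push_cast
      ring
    rw [e1, hbd, hc]
    ring

end Vale.Agent.P099
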