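import Vale.Agent.P099.Refl

/-! # P099, module LAMZ: a nowhere vanishing `c` forces `λ = 0`

`E(z,u) = exp (i λ ⟨z,u⟩) c(u)` satisfies `E(rho A i z, refl A i u) = E(z,u)` for all `z` (from the hypothesis for one
`p ∈ side A i`, `inner_refl`, `rho_side`, `rho_add`).  Apply it along the words `[0,1,0,2]` and `[0,2,0,1]`: their linear parts agree
(rotations commute) and `word A [0,1,0,2] z - word A [0,2,0,1] z = w ≠ 0` does not depend on `z`
(`rho 0 ∘ rho 1` and `rho 0 ∘ rho 2` are rotations about `A 2` and `A 1` by `a ≠ 1`, `b ≠ 1`, and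
`w = ± (1-a)(1-b)(A 1 - A 2)`).  So `exp (iλ⟨w,v⟩) = 1` for all unit `v`: impossible for `λ ≠ 0`
(take `v` with `λ⟨w,v⟩` in `(0, π)`). -/

set_option autoImplicit false

namespace Vale.Agent.P099

open Complex

/-- the key identity -/
theorem LAMZ_key {A : Fin 3 → ℂ} (hA : AffineIndependent ℝ A) {lam : ℝ}
    {c : ℂ → ℂ} (hc : ∀ (i : Fin 3) (u p : ℂ), ‖u‖ = 1 → p ∈ side A i →
      exp (I * (lam * (p * (starRingEnd ℂ) (refl A i u)).re : ℝ)) * c (refl A i u) =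
        exp (I * (lam * (p * (starRingEnd ℂ) u).re : ℝ)) * c u)
    (i : Fin 3) (z u : ℂ) (hu : ‖u‖ = 1) :
    exp (I * (lam * (rho A i z * (starRingEnd ℂ) (refl A i u)).re : ℝ)) * c (refl A i u) =
      exp (I * (lam * (z * (starRingEnd ℂ) u).re : ℝ)) * c u := by
  obtain ⟨p, hp⟩ := side_ne (A := A) i
  have h1 := hc i u p hu hp
  have h2 : rho A i z = p + refl A i (z - p) := by
    have h3 := rho_add A i p (z - p)
    rw [rho_side hA hp] at h3
    rw [← h3]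
    congr 1
    ring
  have h3 := inner_refl hA i (z - p) u
  have e1 : (rho A i z * (starRingEnd ℂ) (refl A i u)).re =
      ((z - p) * (starRingEnd ℂ) u).re + (p * (starRingEnd ℂ) (refl A i u)).re := by
    rw [h2, add_mul, Complex.add_re, h3, add_comm]
  have e2 : (z * (starRingEnd ℂ) u).re =
      ((z - p) * (starRingEnd ℂ) u).re + (p * (starRingEnd ℂ) u).re := by
    rw [← Complex.add_re, ← add_mul, sub_add_cancel]
  have e3 : ∀ s t : ℝ, exp (I * (lam * (s + t) : ℝ)) =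
      exp (I * (lam * s : ℝ)) * exp (I * (lam * t : ℝ)) := by
    intro s t
    rw [← Complex.exp_add]
    congr 1
    push_cast
    ring
  rw [e1, e2, e3, e3, mul_assoc, mul_assoc, h1]

/-- the multiplier of the composition of two reflections -/
noncomputable def LAMZ_m (A : Fin 3 → ℂ) (i j : Fin 3) : ℂ :=
  dir A i / (starRingEnd ℂ) (dir A i) * ((starRingEnd ℂ) (dir A j) / dir A j)

theorem LAMZ_refl2 (A : Fin 3 → ℂ) (i j : Fin 3) (u : ℂ) :
    refl A i (refl A j u) = LAMZ_m A i j * u := by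
  unfold refl LAMZ_m
  simp only [map_mul, map_div₀, Complex.conj_conj]
  ring

theorem LAMZ_m_ne_zero {A : Fin 3 → ℂ} (hA : AffineIndependent ℝ A) (i j : Fin 3) :
    LAMZ_m A i j ≠ 0 := by
  have hi := dir_ne hA i
  have hj := dir_ne hA j
  have hci : (starRingEnd ℂ) (dir A i) ≠ 0 := (map_ne_zero _).2 hi
  have hcj : (starRingEnd ℂ) (dir A j) ≠ 0 := (map_ne_zero _).2 hj
  exact mul_ne_zero (div_ne_zero hi hci) (div_ne_zero hcj hj)

theorem LAMZ_real {a b : ℂ} (ha : a ≠ 0) (hb : b ≠ 0)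
    (h : a / (starRingEnd ℂ) a * ((starRingEnd ℂ) b / b) = 1) : ∃ r : ℝ, a = r * b := by
  have hca : (starRingEnd ℂ) a ≠ 0 := (map_ne_zero _).2 ha
  have hcb : (starRingEnd ℂ) b ≠ 0 := (map_ne_zero _).2 hb
  have h1 : (starRingEnd ℂ) (a / b) = a / b := by
    rw [map_div₀]
    field_simp at h ⊢
    linear_combination -h
  obtain ⟨r, hr⟩ := Complex.conj_eq_iff_real.1 h1
  exact ⟨r, by rw [← hr]; field_simp⟩

theorem LAMZ_m01 {A : Fin 3 → ℂ} (hA : AffineIndependent ℝ A) : LAMZ_m A 0 1 ≠ 1 := by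
  intro h
  obtain ⟨r, hr⟩ := LAMZ_real (dir_ne hA 0) (dir_ne hA 1) h
  have h0 : dir A 0 = A 1 - A 2 := rfl
  have h1 : dir A 1 = A 2 - A 0 := rfl
  rw [h0, h1] at hr
  have h2 := (affineIndependent_iff (k := ℝ) (p := A)).1 hA Finset.univ ![r, 1, -(1 + r)] (by
    simp [Fin.sum_univ_three]
    ring) (by
    simp only [Fin.sum_univ_three, Matrix.cons_val_zero, Matrix.cons_val_one, Matrix.cons_val,
      Complex.real_smul]
    push_cast
    linear_combination hr) 1 (Finset.mem_univ _)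
  simp at h2

theorem LAMZ_m02 {A : Fin 3 → ℂ} (hA : AffineIndependent ℝ A) : LAMZ_m A 0 2 ≠ 1 := by
  intro h
  obtain ⟨r, hr⟩ := LAMZ_real (dir_ne hA 0) (dir_ne hA 2) h
  have h0 : dir A 0 = A 1 - A 2 := rfl
  have h1 : dir A 2 = A 0 - A 1 := rfl
  rw [h0, h1] at hr
  have h2 := (affineIndependent_iff (k := ℝ) (p := A)).1 hA Finset.univ ![-r, 1 + r, -1] (by
    simp [Fin.sum_univ_three]) (by
    simp only [Fin.sum_univ_three, Matrix.cons_val_zero, Matrix.cons_val_one, Matrix.cons_val,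
      Complex.real_smul]
    push_cast
    linear_combination hr) 2 (Finset.mem_univ _)
  simp at h2

theorem lam_zero {A : Fin 3 → ℂ} (hA : AffineIndependent ℝ A) {lam : ℝ} (hlam : lam ≠ 0)
    {c : ℂ → ℂ} (hc : ∀ (i : Fin 3) (u p : ℂ), ‖u‖ = 1 → p ∈ side A i →
      exp (I * (lam * (p * (starRingEnd ℂ) (refl A i u)).re : ℝ)) * c (refl A i u) =
        exp (I * (lam * (p * (starRingEnd ℂ) u).re : ℝ)) * c u)
    (hne : ∀ u : ℂ, ‖u‖ = 1 → c u ≠ 0) : False := by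
  have key := LAMZ_key hA hc
  set a := LAMZ_m A 0 1 with ha
  set b := LAMZ_m A 0 2 with hb
  have n : ∀ i u, ‖refl A i u‖ = ‖u‖ := norm_refl hA
  -- the two words
  have k1 : ∀ u, ‖u‖ = 1 → exp (I * (lam * ((rho A 0 (rho A 1 (rho A 0 (rho A 2 0)))) *
      (starRingEnd ℂ) (refl A 0 (refl A 1 (refl A 0 (refl A 2 u))))).re : ℝ)) *
      c (refl A 0 (refl A 1 (refl A 0 (refl A 2 u)))) =
      exp (I * (lam * ((0 : ℂ) * (starRingEnd ℂ) u).re : ℝ)) * c u := by
    intro u hu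
    rw [key 0 _ _ (by rw [n, n, n, hu]), key 1 _ _ (by rw [n, n, hu]), key 0 _ _ (by rw [n, hu]),
      key 2 _ _ hu]
  have k2 : ∀ u, ‖u‖ = 1 → exp (I * (lam * ((rho A 0 (rho A 2 (rho A 0 (rho A 1 0)))) *
      (starRingEnd ℂ) (refl A 0 (refl A 2 (refl A 0 (refl A 1 u))))).re : ℝ)) *
      c (refl A 0 (refl A 2 (refl A 0 (refl A 1 u)))) =
      exp (I * (lam * ((0 : ℂ) * (starRingEnd ℂ) u).re : ℝ)) * c u := by
    intro u hu
    rw [key 0 _ _ (by rw [n, n, n, hu]), key 2 _ _ (by rw [n, n, hu]), key 0 _ _ (by rw [n, hu]),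
      key 1 _ _ hu]
  have hl1 : ∀ u, refl A 0 (refl A 1 (refl A 0 (refl A 2 u))) = a * b * u := by
    intro u
    rw [LAMZ_refl2, LAMZ_refl2, ← ha, ← hb]
    ring
  have hl2 : ∀ u, refl A 0 (refl A 2 (refl A 0 (refl A 1 u))) = a * b * u := by
    intro u
    rw [LAMZ_refl2, LAMZ_refl2, ← ha, ← hb]
    ring
  -- rotations
  have hr01 : ∀ z, rho A 0 (rho A 1 z) = A 2 + a * (z - A 2) := by
    intro z
    have h1 : rho A 1 z = A 2 + refl A 1 (z - A 2) := rfl
    have h2 : rho A 0 (A 2) = A 2 := by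
      have h3 : rho A 0 (A 2) = A 1 + refl A 0 (A 2 - A 1) := rfl
      have h4 : A 2 - A 1 = ((-1 : ℝ) : ℂ) * dir A 0 := by
        have : dir A 0 = A 1 - A 2 := rfl
        rw [this]
        push_cast
        ring
      rw [h3, h4, refl_real, refl_dir hA, ← h4]
      ring
    rw [h1, rho_add, h2, LAMZ_refl2]
  have hr02 : ∀ z, rho A 0 (rho A 2 z) = A 1 + b * (z - A 1) := by
    intro z
    have h1 : rho A 2 z = A 1 + refl A 2 (z - A 1) := by
      have h3 : rho A 2 (A 1) = A 1 := by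
        have h4 : rho A 2 (A 1) = A 0 + refl A 2 (A 1 - A 0) := rfl
        have h5 : A 1 - A 0 = ((-1 : ℝ) : ℂ) * dir A 2 := by
          have : dir A 2 = A 0 - A 1 := rfl
          rw [this]
          push_cast
          ring
        rw [h4, h5, refl_real, refl_dir hA, ← h5]
        ring
      have h6 := rho_add A 2 (A 1) (z - A 1)
      rw [h3] at h6
      rw [← h6]
      congr 1
      ring
    have h2 : rho A 0 (A 1) = A 1 := by
      have h3 : rho A 0 (A 1) = A 1 + refl A 0 (A 1 - A 1) := rfl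
      rw [h3, sub_self]
      simp [refl]
    rw [h1, rho_add, h2, LAMZ_refl2]
  obtain ⟨w, hw⟩ : ∃ w : ℂ, w = (A 2 - A 1) * (1 - a) * (1 - b) := ⟨_, rfl⟩
  have hdiff : rho A 0 (rho A 1 (rho A 0 (rho A 2 0))) =
      rho A 0 (rho A 2 (rho A 0 (rho A 1 0))) + w := by
    rw [hr01, hr02, hr02, hr01, hw]
    ring
  have hw0 : w ≠ 0 := by
    rw [hw]
    have h1 : A 2 - A 1 ≠ 0 := by
      have : dir A 0 = A 1 - A 2 := rfl
      have h2 := dir_ne hA 0
      rw [this] at h2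
      exact sub_ne_zero.2 (sub_ne_zero.1 h2).symm
    exact mul_ne_zero (mul_ne_zero h1 (sub_ne_zero.2 (LAMZ_m01 hA).symm))
      (sub_ne_zero.2 (LAMZ_m02 hA).symm)
  have hnab : ∀ u, ‖a * b * u‖ = ‖u‖ := by
    intro u
    rw [← hl1, n, n, n, n]
  have hexp : ∀ v, ‖v‖ = 1 → exp (I * (lam * (w * (starRingEnd ℂ) v).re : ℝ)) = 1 := by
    intro v hv
    have hab : a * b ≠ 0 := mul_ne_zero (LAMZ_m_ne_zero hA 0 1) (LAMZ_m_ne_zero hA 0 2)
    obtain ⟨u, hu⟩ : ∃ u, a * b * u = v := ⟨(a * b)⁻¹ * v, by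
      rw [← mul_assoc, mul_inv_cancel₀ hab, one_mul]⟩
    have hu1 : ‖u‖ = 1 := by rw [← hnab, hu, hv]
    have e1 := k1 u hu1
    have e2 := k2 u hu1
    rw [hl1, hu] at e1
    rw [hl2, hu] at e2
    rw [← e2, hdiff, add_mul, Complex.add_re] at e1
    have e3 : exp (I * (lam * ((rho A 0 (rho A 2 (rho A 0 (rho A 1 0))) *
        (starRingEnd ℂ) v).re + (w * (starRingEnd ℂ) v).re) : ℝ)) =
        exp (I * (lam * (rho A 0 (rho A 2 (rho A 0 (rho A 1 0))) * (starRingEnd ℂ) v).re : ℝ)) *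
        exp (I * (lam * (w * (starRingEnd ℂ) v).re : ℝ)) := by
      rw [← Complex.exp_add]
      congr 1
      push_cast
      ring
    rw [e3] at e1
    have e4 := mul_right_cancel₀ (hne v hv) e1
    exact (mul_eq_left₀ (Complex.exp_ne_zero _)).1 e4
  -- choose `v`
  have hwn : 0 < ‖w‖ := norm_pos_iff.2 hw0
  have hlp : 0 < |lam| := abs_pos.2 hlam
  obtain ⟨s, hs0, hs1, hs2⟩ : ∃ s : ℝ, 0 < s ∧ s ≤ 1 ∧ |lam| * ‖w‖ * s ≤ 1 := by
    refine ⟨min 1 (1 / (|lam| * ‖w‖)), lt_min one_pos (by positivity), min_le_left _ _, ?_⟩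
    have h1 : min 1 (1 / (|lam| * ‖w‖)) ≤ 1 / (|lam| * ‖w‖) := min_le_right _ _
    calc |lam| * ‖w‖ * min 1 (1 / (|lam| * ‖w‖)) ≤ |lam| * ‖w‖ * (1 / (|lam| * ‖w‖)) := by
          gcongr
      _ = 1 := by field_simp
  obtain ⟨v, hv⟩ : ∃ v : ℂ, v = w / ‖w‖ * exp (I * (Real.arccos s : ℝ)) := ⟨_, rfl⟩
  have hwnc : ((‖w‖ : ℝ) : ℂ) ≠ 0 := by exact_mod_cast hwn.ne'
  have hv1 : ‖v‖ = 1 := by
    rw [hv, norm_mul, norm_div, Complex.norm_real, norm_norm, div_self hwn.ne', one_mul,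
      mul_comm I, Complex.norm_exp_ofReal_mul_I]
  have hre : (w * (starRingEnd ℂ) v).re = ‖w‖ * s := by
    have h1 : w * (starRingEnd ℂ) v = ((‖w‖ : ℝ) : ℂ) * exp (((-Real.arccos s : ℝ) : ℂ) * I) := by
      rw [hv, map_mul, map_div₀, Complex.conj_ofReal, ← Complex.exp_conj, map_mul,
        Complex.conj_I, Complex.conj_ofReal]
      have h2 : w * (starRingEnd ℂ) w = ((‖w‖ : ℝ) : ℂ) * ((‖w‖ : ℝ) : ℂ) := by
        rw [Complex.mul_conj, Complex.normSq_eq_norm_sq]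
        push_cast
        ring
      rw [← mul_assoc, mul_div_assoc', h2, mul_div_assoc, div_self hwnc, mul_one]
      congr 2
      push_cast
      ring
    rw [h1, Complex.re_ofReal_mul, Complex.exp_ofReal_mul_I_re, Real.cos_neg,
      Real.cos_arccos (by linarith) hs1]
  have h1 := hexp v hv1
  rw [hre, Complex.exp_eq_one_iff] at h1
  obtain ⟨m, hm⟩ := h1
  have h2 : lam * (‖w‖ * s) = m * (2 * Real.pi) := by
    have h3 : I * ((lam * (‖w‖ * s) : ℝ) : ℂ) = I * ((m * (2 * Real.pi) : ℝ) : ℂ) := by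
      rw [hm]
      push_cast
      ring
    have h4 := mul_left_cancel₀ Complex.I_ne_zero h3
    exact_mod_cast h4
  have h3 : |lam * (‖w‖ * s)| ≤ 1 := by
    rw [abs_mul, abs_of_pos (by positivity : 0 < ‖w‖ * s), ← mul_assoc]
    exact hs2
  have h4 : m ≠ 0 := by
    rintro rfl
    rw [Int.cast_zero, zero_mul] at h2
    have : lam * (‖w‖ * s) ≠ 0 := mul_ne_zero hlam (by positivity)
    exact this h2
  have h5 : (1 : ℝ) ≤ |(m : ℝ)| := by
    rw [← Int.cast_abs]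
    exact_mod_cast Int.one_le_abs h4
  rw [h2, abs_mul, abs_of_pos (by positivity : 0 < 2 * Real.pi)] at h3
  have h6 := Real.pi_gt_three
  nlinarith

end Vale.Agent.P099
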