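import Vale.Agent.P099.Exit

/-! # P099, module REFC: behaviour of `c` under the reflections

If `u` is parallel to the side then `refl A i u = u`.  Otherwise the segments `p ± s u` on one side are in the
triangle for small `s`; if `p - s u ∈ tri` use `bounce` with `inward_refl` (applied to `-u`), if `p + s u ∈ tri` use
it for `refl A i u` in place of `u` (`refl_refl`). -/

set_option autoImplicit false

namespace Vale.Agent.P099

open Complex Topology Filter

theorem REFC_three (i j : Fin 3) (h : j ≠ i) : j = i + 1 ∨ j = i + 2 := by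
  revert i j
  decide

theorem REFC_small {A : Fin 3 → ℂ} (hA : AffineIndependent ℝ A) {p v : ℂ} {i : Fin 3}
    (hp : p ∈ side A i) : ∃ (W : Fin 3 → ℂ → ℝ),
      (∀ z v, ∀ t : ℝ, W i (z + t * v) = W i z + t * (W i (z + v) - W i z)) ∧ W i p = 0 ∧
      (W i (p + v) = 0 → ∃ b : ℝ, v = b * dir A i) ∧
      ∀ v, 0 < W i (p + v) → ∃ τ : ℝ, 0 < τ ∧ p + τ * v ∈ tri A := by
  obtain ⟨W, hW1, hW2, hW3, hW4, hW5⟩ := exists_weight hA
  obtain ⟨w, hwi, hwj, hw1, hwe⟩ := hp
  have hpw : ∀ j, W j p = w j := fun j => by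
    rw [hwe]
    exact hW5 w hw1 j
  refine ⟨W, hW2 i, by rw [hpw, hwi], ?_, ?_⟩
  · intro h0
    refine ⟨W (i + 1) (p + v) - W (i + 1) p, ?_⟩
    have e1 : v = ∑ j, ((W j (p + v) - W j p : ℝ) : ℂ) * A j := by
      have h1 := hW4 (p + v)
      have h2 := hW4 p
      calc v = (p + v) - p := by ring
        _ = ∑ j, (W j (p + v) : ℂ) * A j - ∑ j, (W j p : ℂ) * A j := by rw [← h1, ← h2]
        _ = _ := by
          rw [← Finset.sum_sub_distrib]
          refine Finset.sum_congr rfl fun j _ => ?_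
          push_cast
          ring
    have e2 : ∑ j, (W j (p + v) - W j p) = 0 := by
      rw [Finset.sum_sub_distrib, hW3, hW3, sub_self]
    have e3 : W i (p + v) - W i p = 0 := by rw [h0, hpw, hwi, sub_self]
    unfold dir
    have key : ∀ (g : Fin 3 → ℝ), ∑ j, g j = 0 → g i = 0 →
        ∑ j, ((g j : ℝ) : ℂ) * A j = (g (i + 1) : ℂ) * (A (i + 1) - A (i + 2)) := by
      intro g h1 h2
      have h3 : g (i + 2) = -g (i + 1) := by
        have : ∑ j, g j = g i + g (i + 1) + g (i + 2) := by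
          fin_cases i <;> simp [Fin.sum_univ_three] <;> ring
        linarith
      have h4 : ∑ j, ((g j : ℝ) : ℂ) * A j = (g i : ℂ) * A i + (g (i + 1) : ℂ) * A (i + 1) +
          (g (i + 2) : ℂ) * A (i + 2) := by
        fin_cases i <;> simp [Fin.sum_univ_three] <;> ring
      rw [h4, h2, h3]
      push_cast
      ring
    have h5 := key (fun j => W j (p + v) - W j p) e2 e3
    rw [← e1] at h5
    exact h5
  · intro v hv
    have hcont : ∀ j, ContinuousAt (fun τ : ℝ => W j (p + τ * v)) 0 := fun j => by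
      have h1 := hW1 j
      have : Continuous fun τ : ℝ => W j (p + τ * v) := by fun_prop
      exact this.continuousAt
    have hev : ∀ j, j ≠ i → ∀ᶠ τ : ℝ in 𝓝 (0 : ℝ), 0 < W j (p + (τ : ℂ) * v) := by
      intro j hj
      refine (hcont j).tendsto.eventually_const_lt ?_
      simp only [ofReal_zero, zero_mul, add_zero]
      rw [hpw]
      exact hwj j hj
    have hall : ∀ᶠ τ : ℝ in 𝓝 (0 : ℝ), ∀ j, j ≠ i → 0 < W j (p + (τ : ℂ) * v) := by
      rw [eventually_all]
      intro j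
      by_cases hj : j = i
      · exact Eventually.of_forall fun τ h => absurd hj h
      · filter_upwards [hev j hj] with τ hτ _
        exact hτ
    obtain ⟨η, hη, h⟩ := Metric.eventually_nhds_iff.mp hall
    refine ⟨η / 2, by positivity, fun j => W j (p + ((η / 2 : ℝ) : ℂ) * v), fun j => ?_, hW3 _,
      hW4 _⟩
    by_cases hj : j = i
    · subst hj
      show 0 < W j (p + ((η / 2 : ℝ) : ℂ) * v)
      rw [hW2 j, hpw, hwi]
      have : 0 < η / 2 := by positivity
      simp only [sub_zero, zero_add]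
      exact mul_pos this hv
    · exact h (by
        rw [Real.dist_eq, sub_zero, abs_of_pos (by positivity)]
        linarith) j hj

theorem REFC_case {A : Fin 3 → ℂ} (hA : AffineIndependent ℝ A) {f : ℂ → ℂ → ℂ} {lam : ℝ}
    (hf : Eig A lam f) {c : ℂ → ℂ} (hc : ∀ u : ℂ, ‖u‖ = 1 → ∀ x ∈ tri A,
      f x u = exp (I * (lam * (x * (starRingEnd ℂ) u).re : ℝ)) * c u)
    (i : Fin 3) {u p : ℂ} (hu : ‖u‖ = 1) (hp : p ∈ side A i) (s : ℝ) (hs : 0 < s)
    (h1 : p - s * u ∈ tri A) :
    exp (I * (lam * (p * (starRingEnd ℂ) (refl A i u)).re : ℝ)) * c (refl A i u) =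
      exp (I * (lam * (p * (starRingEnd ℂ) u).re : ℝ)) * c u := by
  have hin : p + (s : ℝ) * (-u) ∈ tri A := by
    have : p + (s : ℝ) * (-u) = p - s * u := by ring
    rw [this]
    exact h1
  obtain ⟨τ1, hτ1, h⟩ := inward_refl hA hp s hs hin
  have hneg : refl A i (-u) = -refl A i u := by
    have := refl_real A i (-1) u
    simpa using this
  have h2 := h (τ1 / 2) (by linarith) (by linarith)
  rw [hneg] at h2
  set t : ℝ := τ1 / 2 with ht
  have ht0 : 0 < t := by rw [ht]; linarith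
  have h3 : p + t * refl A i u ∈ tri A := by
    have : p + t * refl A i u = p - ((t : ℝ) : ℂ) * -refl A i u := by ring
    rw [this]
    exact h2
  have hb := hf.bounce i p u s t hu hp hs ht0 h1 h3
  have hRu : ‖refl A i u‖ = 1 := by rw [norm_refl hA, hu]
  rw [hc _ hRu _ h3, hc u hu _ h1] at hb
  have hn : ∀ v : ℂ, ‖v‖ = 1 → (v * (starRingEnd ℂ) v).re = 1 := by
    intro v hv
    rw [Complex.mul_conj, ofReal_re, Complex.normSq_eq_norm_sq, hv]
    norm_num
  have e1 : ((p + t * refl A i u) * (starRingEnd ℂ) (refl A i u)).re =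
      (p * (starRingEnd ℂ) (refl A i u)).re + t := by
    rw [add_mul, add_re, mul_assoc, re_ofReal_mul, hn _ hRu, mul_one]
  have e2 : ((p - s * u) * (starRingEnd ℂ) u).re = (p * (starRingEnd ℂ) u).re - s := by
    rw [sub_mul, sub_re, mul_assoc, re_ofReal_mul, hn _ hu, mul_one]
  rw [e1, e2] at hb
  have hne : exp (I * ((lam * t : ℝ) : ℂ)) ≠ 0 := exp_ne_zero _
  apply mul_left_cancel₀ hne
  have e3 : exp (I * ((lam * t : ℝ) : ℂ)) *
      (exp (I * ((lam * (p * (starRingEnd ℂ) (refl A i u)).re : ℝ) : ℂ)) * c (refl A i u)) =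
      exp (I * ((lam * ((p * (starRingEnd ℂ) (refl A i u)).re + t) : ℝ) : ℂ)) *
        c (refl A i u) := by
    rw [← mul_assoc, ← exp_add]
    congr 2
    push_cast
    ring
  have e4 : exp (I * ((lam * t : ℝ) : ℂ)) *
      (exp (I * ((lam * (p * (starRingEnd ℂ) u).re : ℝ) : ℂ)) * c u) =
      exp (I * ((lam * (s + t) : ℝ) : ℂ)) *
      (exp (I * ((lam * ((p * (starRingEnd ℂ) u).re - s) : ℝ) : ℂ)) * c u) := by
    rw [← mul_assoc, ← mul_assoc, ← exp_add, ← exp_add]
    congr 2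
    push_cast
    ring
  rw [e3, e4]
  exact hb

theorem c_refl {A : Fin 3 → ℂ} (hA : AffineIndependent ℝ A) {f : ℂ → ℂ → ℂ} {lam : ℝ}
    (hf : Eig A lam f) {c : ℂ → ℂ} (hc : ∀ u : ℂ, ‖u‖ = 1 → ∀ x ∈ tri A,
      f x u = exp (I * (lam * (x * (starRingEnd ℂ) u).re : ℝ)) * c u)
    (i : Fin 3) {u p : ℂ} (hu : ‖u‖ = 1) (hp : p ∈ side A i) :
    exp (I * (lam * (p * (starRingEnd ℂ) (refl A i u)).re : ℝ)) * c (refl A i u) =
      exp (I * (lam * (p * (starRingEnd ℂ) u).re : ℝ)) * c u := by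
  obtain ⟨W, hW2, hWp, hW0, hWpos⟩ := REFC_small hA (v := u) hp
  rcases lt_trichotomy (W i (p + u)) 0 with h | h | h
  · have h1 : 0 < W i (p + -u) := by
      have := hW2 p u (-1)
      have e : p + ((-1 : ℝ) : ℂ) * u = p + -u := by push_cast; ring
      rw [e, hWp] at this
      rw [this]
      linarith
    obtain ⟨τ, hτ, hin⟩ := hWpos _ h1
    refine REFC_case hA hf hc i hu hp τ hτ ?_
    have : p - τ * u = p + τ * -u := by ring
    rw [this]
    exact hin
  · obtain ⟨b, hb⟩ := hW0 h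
    have : refl A i u = u := by
      rw [hb, refl_real, refl_dir hA]
    rw [this]
  · obtain ⟨τ, hτ, hin⟩ := hWpos _ h
    obtain ⟨τ1, hτ1, h2⟩ := inward_refl hA hp τ hτ hin
    have h3 := h2 (τ1 / 2) (by linarith) (by linarith)
    have h4 := REFC_case hA hf hc i (u := refl A i u) (by rw [norm_refl hA, hu]) hp (τ1 / 2)
      (by linarith) h3
    rw [refl_refl hA] at h4
    exact h4.symm

/-- `c` is continuous on the unit circle -/
theorem c_cont {A : Fin 3 → ℂ} (_hA : AffineIndependent ℝ A) {f : ℂ → ℂ → ℂ} {lam L : ℝ}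
    (hL : LipDir A L f) {c : ℂ → ℂ} (hc : ∀ u : ℂ, ‖u‖ = 1 → ∀ x ∈ tri A,
      f x u = exp (I * (lam * (x * (starRingEnd ℂ) u).re : ℝ)) * c u) :
    ContinuousOn c {u : ℂ | ‖u‖ = 1} := by
  have hx : (∑ i, (((1 / 3 : ℝ)) : ℂ) * A i) ∈ tri A :=
    ⟨fun _ => 1 / 3, fun _ => by norm_num, by simp [Fin.sum_univ_three], rfl⟩
  set x : ℂ := ∑ i, (((1 / 3 : ℝ)) : ℂ) * A i with hxd
  have hfc : ContinuousOn (fun u => f x u) {u : ℂ | ‖u‖ = 1} := by
    have : LipschitzOnWith (Real.toNNReal L) (fun u => f x u) {u : ℂ | ‖u‖ = 1} := by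
      refine LipschitzOnWith.of_dist_le_mul fun u hu v hv => ?_
      rw [dist_eq_norm, dist_eq_norm]
      refine (hL x hx u v hu hv).trans ?_
      exact mul_le_mul_of_nonneg_right (Real.le_coe_toNNReal L) (norm_nonneg _)
    exact this.continuousOn
  have h1 : ContinuousOn (fun u => exp (-(I * ((lam * (x * (starRingEnd ℂ) u).re : ℝ) : ℂ))) *
      f x u) {u : ℂ | ‖u‖ = 1} := by
    refine ContinuousOn.mul (Continuous.continuousOn (by fun_prop)) hfc
  refine h1.congr fun u hu => ?_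
  show c u = exp (-(I * ((lam * (x * (starRingEnd ℂ) u).re : ℝ) : ℂ))) * f x u
  rw [hc u hu x hx, ← mul_assoc, ← exp_add, neg_add_cancel, exp_zero, one_mul]

end Vale.Agent.P099
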