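import Vale.Agent.P099.Form
import Vale.Agent.P099.ReflC
import Vale.Agent.P099.Dense
import Vale.Agent.P099.LamZ

/-! # P099: final theorem -/

set_option autoImplicit false

namespace Vale.Agent.P099

open Complex

theorem main {A : Fin 3 → ℂ} (hA : AffineIndependent ℝ A)
    (hirr : ∃ i, Irrational (EuclideanGeometry.angle (A (i + 1)) (A i) (A (i + 2)) / Real.pi))
    {f : ℂ → ℂ → ℂ} {lam L : ℝ} (hf : Eig A lam f) (hL : LipDir A L f) :
    ∃ c : ℂ, (∀ x ∈ tri A, ∀ u : ℂ, ‖u‖ = 1 → f x u = c) ∧ (lam ≠ 0 → c = 0) := by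
  obtain ⟨c, hc⟩ := form hA hf hL
  have hcont := c_cont hA hL hc
  have hr : ∀ (i : Fin 3) (u p : ℂ), ‖u‖ = 1 → p ∈ side A i →
      exp (I * (lam * (p * (starRingEnd ℂ) (refl A i u)).re : ℝ)) * c (refl A i u) =
        exp (I * (lam * (p * (starRingEnd ℂ) u).re : ℝ)) * c u :=
    fun i u p hu hp => c_refl hA hf hc i hu hp
  by_cases hl : lam = 0
  · subst hl
    have hinv : ∀ i : Fin 3, ∀ u : ℂ, ‖u‖ = 1 → c (refl A i u) = c u := by
      intro i u hu
      obtain ⟨p, hp⟩ := side_ne (A := A) i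
      have := hr i u p hu hp
      simpa using this
    have hconst := dense_rot hA hirr c hcont hinv
    refine ⟨c 1, fun x hx u hu => ?_, fun h => absurd rfl h⟩
    rw [hc u hu x hx, hconst u 1 hu (by simp)]
    simp
  · have hinv : ∀ i : Fin 3, ∀ u : ℂ, ‖u‖ = 1 →
        ((‖c (refl A i u)‖ : ℝ) : ℂ) = ((‖c u‖ : ℝ) : ℂ) := by
      intro i u hu
      obtain ⟨p, hp⟩ := side_ne (A := A) i
      have h1 := congrArg norm (hr i u p hu hp)
      rw [norm_mul, norm_mul, mul_comm I, mul_comm I, norm_exp_ofReal_mul_I,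
        norm_exp_ofReal_mul_I, one_mul, one_mul] at h1
      rw [h1]
    have hconst := dense_rot hA hirr (fun u => ((‖c u‖ : ℝ) : ℂ))
      (Complex.continuous_ofReal.comp_continuousOn hcont.norm) hinv
    have hz : ∀ u : ℂ, ‖u‖ = 1 → c u = 0 := by
      by_contra hcon
      push Not at hcon
      obtain ⟨u0, hu0, hne⟩ := hcon
      refine lam_zero hA hl hr fun u hu h0 => ?_
      have h1 := hconst u u0 hu hu0
      rw [h0, norm_zero] at h1
      have h2 : ‖c u0‖ = 0 := by exact_mod_cast h1.symm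
      exact hne (norm_eq_zero.mp h2)
    exact ⟨0, fun x hx u hu => by rw [hc u hu x hx, hz u hu, mul_zero], fun _ => rfl⟩

end Vale.Agent.P099
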