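import Vale.Agent.P099.Zero

/-! # P099, module FORM: `f (x, u) = exp (i λ ⟨x, u⟩) c(u)` in the triangle

For fixed `u` the function `h x = exp (-iλ⟨x,u⟩) f x u`, `⟨x,u⟩ = (x * conj u).re`, is constant along `u` (`free`) and along
`u I` (`perp_const`), so it is locally constant in the open convex set `tri A`
(for `x'` in a ball around `x` go along an L-shaped path inside the ball), hence constant. -/

set_option autoImplicit false

namespace Vale.Agent.P099

open Complex

private theorem FORM_re1 {x u : ℂ} (hu : ‖u‖ = 1) (a : ℝ) :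
    ((x + a * u) * (starRingEnd ℂ) u).re = (x * (starRingEnd ℂ) u).re + a := by
  have h1 : u * (starRingEnd ℂ) u = 1 := by
    rw [Complex.mul_conj, Complex.normSq_eq_norm_sq, hu]
    norm_num
  have h2 : (x + a * u) * (starRingEnd ℂ) u = x * (starRingEnd ℂ) u + (a : ℂ) := by
    linear_combination (a : ℂ) * h1
  rw [h2, Complex.add_re, Complex.ofReal_re]

private theorem FORM_re2 {x u : ℂ} (hu : ‖u‖ = 1) (a : ℝ) :
    ((x + a * (u * I)) * (starRingEnd ℂ) u).re = (x * (starRingEnd ℂ) u).re := by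
  have h1 : u * (starRingEnd ℂ) u = 1 := by
    rw [Complex.mul_conj, Complex.normSq_eq_norm_sq, hu]
    norm_num
  have h2 : (x + a * (u * I)) * (starRingEnd ℂ) u = x * (starRingEnd ℂ) u + (a : ℂ) * I := by
    linear_combination (a : ℂ) * I * h1
  rw [h2, Complex.add_re, Complex.re_ofReal_mul, Complex.I_re, mul_zero, add_zero]

private theorem FORM_loc {A : Fin 3 → ℂ} (hA : AffineIndependent ℝ A) {f : ℂ → ℂ → ℂ} {lam L : ℝ}
    (hf : Eig A lam f) (hL : LipDir A L f) {u : ℂ} (hu : ‖u‖ = 1) {x : ℂ} {r : ℝ}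
    (hr : Metric.ball x r ⊆ tri A) {y : ℂ} (hy : y ∈ Metric.ball x r) :
    exp (-(I * (lam * (y * (starRingEnd ℂ) u).re : ℝ))) * f y u =
      exp (-(I * (lam * (x * (starRingEnd ℂ) u).re : ℝ))) * f x u := by
  have h1 : (starRingEnd ℂ) u * u = 1 := by
    rw [mul_comm, Complex.mul_conj, Complex.normSq_eq_norm_sq, hu]
    norm_num
  set z : ℂ := (y - x) * (starRingEnd ℂ) u with hz
  have hzn : ‖z‖ < r := by
    rw [hz, norm_mul, RCLike.norm_conj, hu, mul_one]
    rwa [Metric.mem_ball, dist_eq_norm] at hy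
  have hyz : y = x + z.re * u + z.im * (u * I) := by
    have h2 : (z.re : ℂ) + z.im * I = z := Complex.re_add_im z
    have h3 : z * u = y - x := by
      rw [hz]; linear_combination (y - x) * h1
    linear_combination (-1 : ℂ) * h3 - u * h2
  have hnx : ∀ s : ℝ, |s| ≤ |z.im| → x + z.re * u + s * (u * I) ∈ tri A := by
    intro s hs
    apply hr
    rw [Metric.mem_ball, dist_eq_norm]
    have h4 : x + z.re * u + s * (u * I) - x = ((z.re : ℂ) + s * I) * u := by ring
    rw [h4, norm_mul, hu, mul_one]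
    refine lt_of_le_of_lt ?_ hzn
    rw [Complex.norm_def, Complex.norm_def]
    apply Real.sqrt_le_sqrt
    rw [Complex.normSq_apply, Complex.normSq_apply]
    have h5 : ((z.re : ℂ) + s * I).re = z.re := by simp
    have h6 : ((z.re : ℂ) + s * I).im = s := by simp
    rw [h5, h6]
    have h7 := sq_le_sq.2 hs
    nlinarith [h7]
  have hx : x ∈ tri A := hr (Metric.mem_ball_self (lt_of_le_of_lt (norm_nonneg _) hzn))
  have hx1 : x + z.re * u ∈ tri A := by
    have := hnx 0 (by rw [abs_zero]; exact abs_nonneg _)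
    simpa using this
  have e1 : f (x + z.re * u) u = exp (I * (lam * z.re : ℝ)) * f x u := hf.free x u z.re hu hx hx1
  have e2 : f y u = f (x + z.re * u) u := by
    rw [hyz]
    rcases le_total 0 z.im with h | h
    · have := perp_const hA hf hL (x0 := x + z.re * u) hu h (fun s hs => hnx s (by
        rw [abs_of_nonneg hs.1, abs_of_nonneg h]; exact hs.2))
      simpa using this
    · have := perp_const hA hf hL (x0 := x + z.re * u) hu h (fun s hs => hnx s (by
        rw [abs_of_nonpos hs.2, abs_of_nonpos h]; linarith [hs.1]))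
      simpa using this.symm
  have e3 : (y * (starRingEnd ℂ) u).re = (x * (starRingEnd ℂ) u).re + z.re := by
    rw [hyz, FORM_re2 hu, FORM_re1 hu]
  rw [e2, e1, e3, ← mul_assoc, ← Complex.exp_add]
  congr 2
  push_cast
  ring

theorem form {A : Fin 3 → ℂ} (hA : AffineIndependent ℝ A) {f : ℂ → ℂ → ℂ} {lam L : ℝ}
    (hf : Eig A lam f) (hL : LipDir A L f) :
    ∃ c : ℂ → ℂ, ∀ u : ℂ, ‖u‖ = 1 → ∀ x ∈ tri A,
      f x u = exp (I * (lam * (x * (starRingEnd ℂ) u).re : ℝ)) * c u := by
  have hne : ∃ c : ℂ → ℂ, ∀ u : ℂ, ‖u‖ = 1 → ∀ x ∈ tri A,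
      exp (-(I * (lam * (x * (starRingEnd ℂ) u).re : ℝ))) * f x u = c u := by
    have h1 : ∀ u : ℂ, ∃ c : ℂ, ‖u‖ = 1 → ∀ x ∈ tri A,
        exp (-(I * (lam * (x * (starRingEnd ℂ) u).re : ℝ))) * f x u = c := by
      intro u
      by_cases hu : ‖u‖ = 1
      · have hd : ∀ x ∈ tri A, HasDerivAt
            (fun x => exp (-(I * (lam * (x * (starRingEnd ℂ) u).re : ℝ))) * f x u) 0 x := by
          intro x hx
          obtain ⟨r, hr0, hr⟩ := Metric.isOpen_iff.1 (isOpen_tri hA) x hx
          refine (hasDerivAt_const x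
            (exp (-(I * (lam * (x * (starRingEnd ℂ) u).re : ℝ))) * f x u)).congr_of_eventuallyEq ?_
          filter_upwards [Metric.ball_mem_nhds x hr0] with y hy
          exact FORM_loc hA hf hL hu hr hy
        obtain ⟨c, hc⟩ := (isOpen_tri hA).exists_is_const_of_deriv_eq_zero
          (convex_tri A).isPreconnected
          (fun x hx => (hd x hx).differentiableAt.differentiableWithinAt)
          (fun x hx => (hd x hx).deriv)
        exact ⟨c, fun _ x hx => hc x hx⟩
      · exact ⟨0, fun h => absurd h hu⟩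
    choose c hc using h1
    exact ⟨c, hc⟩
  obtain ⟨c, hc⟩ := hne
  refine ⟨c, fun u hu x hx => ?_⟩
  rw [← hc u hu x hx, ← mul_assoc, ← Complex.exp_add, add_neg_cancel, Complex.exp_zero, one_mul]

end Vale.Agent.P099
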