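import Vale.Agent.P099.Exit
import Vale.Agent.P099.Beam2

/-! # P099, module GOOD: backward steps for the beam condition -/

set_option autoImplicit false

namespace Vale.Agent.P099

open Complex

/-- all points close to `p` on the outgoing ray in direction `u` are transported to `(x, U)`, the
total time from `p` being `t` -/
def Good (A : Fin 3 → ℂ) (f : ℂ → ℂ → ℂ) (lam L : ℝ) (p u x U : ℂ) (t : ℝ) : Prop :=
  ∃ δ > 0, ∀ τ : ℝ, 0 < τ → τ < δ → p + τ * u ∈ tri A ∧ Tr f lam L (p + τ * u) u x U (t - τ)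

theorem good_init {A : Fin 3 → ℂ} (hA : AffineIndependent ℝ A) {f : ℂ → ℂ → ℂ} {lam L : ℝ}
    (hf : Eig A lam f) {x U : ℂ} (hU : ‖U‖ = 1) {ℓ : ℝ} (hℓ : 0 < ℓ)
    (h : ∀ τ : ℝ, 0 ≤ τ → τ < ℓ → x - τ * U ∈ tri A) :
    Good A f lam L (x - ℓ * U) U x U ℓ := by
  refine ⟨ℓ, hℓ, fun τ h0 h1 => ?_⟩
  have e1 : x - (ℓ : ℂ) * U + (τ : ℂ) * U = x - ((ℓ - τ : ℝ) : ℂ) * U := by
    push_cast
    ring
  have hX : x - ((ℓ - τ : ℝ) : ℂ) * U ∈ tri A := h (ℓ - τ) (by linarith) (by linarith)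
  have hx : x ∈ tri A := by
    have h2 := h 0 le_rfl hℓ
    rw [Complex.ofReal_zero, zero_mul, sub_zero] at h2
    exact h2
  rw [e1]
  have e2 : x - ((ℓ - τ : ℝ) : ℂ) * U + ((ℓ - τ : ℝ) : ℂ) * U = x := by ring
  have h3 := tr_free (L := L) hA hf hU hX (ℓ - τ) (by rw [e2]; exact hx)
  rw [e2] at h3
  exact ⟨hX, h3⟩

theorem good_step {A : Fin 3 → ℂ} (hA : AffineIndependent ℝ A) {f : ℂ → ℂ → ℂ} {lam L : ℝ}
    (hf : Eig A lam f) {p u x U : ℂ} {i : Fin 3} {t ℓ : ℝ} (hu : ‖u‖ = 1) (hp : p ∈ side A i)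
    (hG : Good A f lam L p u x U t) (hℓ : 0 < ℓ)
    (h : ∀ τ : ℝ, 0 < τ → τ < ℓ → p - τ * refl A i u ∈ tri A) :
    Good A f lam L (p - ℓ * refl A i u) (refl A i u) x U (t + ℓ) := by
  obtain ⟨δ, hδ, hG⟩ := hG
  refine ⟨ℓ, hℓ, fun τ h0 h1 => ?_⟩
  have e1 : p - (ℓ : ℂ) * refl A i u + (τ : ℂ) * refl A i u
      = p - ((ℓ - τ : ℝ) : ℂ) * refl A i u := by
    push_cast
    ring
  have hX : p - ((ℓ - τ : ℝ) : ℂ) * refl A i u ∈ tri A := h (ℓ - τ) (by linarith) (by linarith)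
  rw [e1]
  refine ⟨hX, ?_⟩
  obtain ⟨hq, hT⟩ := hG (δ / 2) (by linarith) (by linarith)
  have hRu : ‖refl A i u‖ = 1 := by rw [norm_refl hA, hu]
  have h3 := tr_bounce (L := L) hA hf hRu hp (s := ℓ - τ) (t := δ / 2) (by linarith)
    (by linarith) hX (by rw [refl_refl hA]; exact hq)
  rw [refl_refl hA] at h3
  have h4 := tr_trans h3 hT
  have e2 : ℓ - τ + δ / 2 + (t - δ / 2) = t + ℓ - τ := by ring
  rw [e2] at h4
  exact h4

theorem good_end {A : Fin 3 → ℂ} (hA : AffineIndependent ℝ A) {f : ℂ → ℂ → ℂ} {lam L : ℝ}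
    (hf : Eig A lam f) (hL : LipDir A L f) {p u x U : ℂ} {t : ℝ} (hu : ‖u‖ = 1)
    (hG : Good A f lam L p u x U t) (η : ℝ) (hη : 0 < η) :
    ∃ t' : ℝ, t - η ≤ t' ∧ Beam f lam L x U t' := by
  obtain ⟨δ, hδ, hG⟩ := hG
  obtain ⟨τ, h0, h1, h2⟩ : ∃ τ : ℝ, 0 < τ ∧ τ < δ ∧ τ ≤ η :=
    ⟨min (δ / 2) η, lt_min (by linarith) hη, lt_of_le_of_lt (min_le_left _ _) (by linarith),
      min_le_right _ _⟩
  obtain ⟨hq, hT⟩ := hG τ h0 h1
  have h3 := hT 0 (beam_init hA hf hL hq hu)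
  rw [zero_add] at h3
  exact ⟨t - τ, by linarith, h3⟩

end Vale.Agent.P099
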