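import Vale.Agent.P099.Defs

/-! # P099, module LEN2 (helper49): angular momentum about a vertex -/

set_option autoImplicit false

namespace Vale.Agent.P099

open Complex

theorem LEN2_indep {A : Fin 3 → ℂ} (hA : AffineIndependent ℝ A) (a b : ℝ)
    (h : (a : ℂ) * (A 1 - A 0) + (b : ℂ) * (A 2 - A 0) = 0) : a = 0 ∧ b = 0 := by
  rw [affineIndependent_iff] at hA
  have h1 := hA Finset.univ ![-a - b, a, b] (by
    rw [Fin.sum_univ_three]
    simp only [Matrix.cons_val_zero, Matrix.cons_val_one, Matrix.cons_val_two, Matrix.tail_cons,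
      Matrix.head_cons]
    ring) (by
    rw [Fin.sum_univ_three]
    simp only [Matrix.cons_val_zero, Matrix.cons_val_one, Matrix.cons_val_two, Matrix.tail_cons,
      Matrix.head_cons, Complex.real_smul]
    push_cast
    linear_combination h)
  exact ⟨by simpa using h1 1 (Finset.mem_univ _), by simpa using h1 2 (Finset.mem_univ _)⟩

theorem LEN2_cross {A : Fin 3 → ℂ} (hA : AffineIndependent ℝ A) :
    (A 1 - A 0).re * (A 2 - A 0).im - (A 1 - A 0).im * (A 2 - A 0).re ≠ 0 := by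
  intro h
  have h1 := LEN2_indep hA (A 2 - A 0).re (-(A 1 - A 0).re) (by
    apply Complex.ext
    · simp only [add_re, mul_re, ofReal_re, ofReal_im, zero_re]
      ring
    · simp only [add_im, mul_im, ofReal_re, ofReal_im, zero_im]
      linear_combination -h)
  have h2 := LEN2_indep hA (A 2 - A 0).im (-(A 1 - A 0).im) (by
    apply Complex.ext
    · simp only [add_re, mul_re, ofReal_re, ofReal_im, zero_re]
      linear_combination h
    · simp only [add_im, mul_im, ofReal_re, ofReal_im, zero_im]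
      ring)
  have h3 := LEN2_indep hA 1 0 (by
    have e : A 1 - A 0 = 0 := by
      apply Complex.ext
      · rw [zero_re]; linarith [h1.2]
      · rw [zero_im]; linarith [h2.2]
    rw [e]; simp)
  exact one_ne_zero h3.1

theorem LEN2_dir {A : Fin 3 → ℂ} (hA : AffineIndependent ℝ A) {i j : Fin 3} (hij : i ≠ j) :
    ((starRingEnd ℂ) (dir A j) * dir A i).im ≠ 0 := by
  have hc := LEN2_cross hA
  have e2 : (1 : Fin 3) + 1 = 2 := rfl
  have e3 : (1 : Fin 3) + 2 = 0 := rfl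
  have e4 : (2 : Fin 3) + 1 = 0 := rfl
  have e5 : (2 : Fin 3) + 2 = 1 := rfl
  have d0 : dir A 0 = A 1 - A 2 := by unfold dir; rw [zero_add, zero_add]
  have d1 : dir A 1 = A 2 - A 0 := by unfold dir; rw [e2, e3]
  have d2 : dir A 2 = A 0 - A 1 := by unfold dir; rw [e4, e5]
  intro h
  apply hc
  simp only [sub_re, sub_im]
  have key : ∀ i j : Fin 3, i ≠ j → (i = 0 ∧ j = 1) ∨ (i = 0 ∧ j = 2) ∨ (i = 1 ∧ j = 0) ∨
    (i = 1 ∧ j = 2) ∨ (i = 2 ∧ j = 0) ∨ (i = 2 ∧ j = 1) := by decide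
  rcases key i j hij with ⟨rfl, rfl⟩ | ⟨rfl, rfl⟩ | ⟨rfl, rfl⟩ | ⟨rfl, rfl⟩ | ⟨rfl, rfl⟩ | ⟨rfl, rfl⟩ <;>
    simp only [d0, d1, d2, mul_im, conj_re, conj_im, sub_re, sub_im] at h
  · linear_combination -h
  · linear_combination h
  · linear_combination h
  · linear_combination -h
  · linear_combination -h
  · linear_combination h

theorem LEN2_fin : ∀ i m : Fin 3, m ≠ i → m = i + 1 ∨ m = i + 2 := by decide

theorem LEN2_fin1 : ∀ i : Fin 3, i + 1 ≠ i := by decide

theorem LEN2_fin2 : ∀ i : Fin 3, i + 2 ≠ i := by decide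

theorem LEN2_side {A : Fin 3 → ℂ} {i m : Fin 3} (hm : m ≠ i) {p : ℂ} (hp : p ∈ side A i) :
    ∃ r : ℝ, r ≠ 0 ∧ p - A m = (r : ℂ) * dir A i := by
  obtain ⟨w, h0, hpos, hsum, rfl⟩ := hp
  have hm' : m = i + 1 ∨ m = i + 2 := LEN2_fin i m hm
  have hs : ∀ g : Fin 3 → ℂ, ∑ j, g j = g i + g (i + 1) + g (i + 2) := by
    intro g
    have key : ∀ i : Fin 3, i = 0 ∨ i = 1 ∨ i = 2 := by decide
    have e2 : (1 : Fin 3) + 1 = 2 := rfl
    have e3 : (1 : Fin 3) + 2 = 0 := rfl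
    have e4 : (2 : Fin 3) + 1 = 0 := rfl
    have e5 : (2 : Fin 3) + 2 = 1 := rfl
    rw [Fin.sum_univ_three]
    rcases key i with rfl | rfl | rfl
    · rw [zero_add, zero_add]
    · rw [e2, e3]; ring
    · rw [e4, e5]; ring
  have hsc : (w i : ℂ) + w (i + 1) + w (i + 2) = 1 := by
    rw [← hs fun j => (w j : ℂ)]
    exact_mod_cast hsum
  rw [h0, ofReal_zero, zero_add] at hsc
  have n1 : i + 1 ≠ i := LEN2_fin1 i
  have n2 : i + 2 ≠ i := LEN2_fin2 i
  rw [hs fun j => (w j : ℂ) * A j, h0]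
  rcases hm' with rfl | rfl
  · refine ⟨-(w (i + 2)), neg_ne_zero.2 (hpos _ n2).ne', ?_⟩
    unfold dir
    push_cast
    linear_combination (A (i + 1)) * hsc
  · refine ⟨w (i + 1), (hpos _ n1).ne', ?_⟩
    unfold dir
    push_cast
    linear_combination (A (i + 2)) * hsc

theorem LEN2_mom_refl {A : Fin 3 → ℂ} {i m : Fin 3} (hm : m ≠ i)
    {p : ℂ} (hp : p ∈ side A i) (u : ℂ) :
    ((starRingEnd ℂ) (refl A i u) * (p - A m)).im = -((starRingEnd ℂ) u * (p - A m)).im := by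
  obtain ⟨r, -, hr⟩ := LEN2_side hm hp
  rw [hr]
  by_cases hd : dir A i = 0
  · rw [hd]; simp
  have e : (starRingEnd ℂ) (refl A i u) * ((r : ℂ) * dir A i)
      = (r : ℂ) * (u * (starRingEnd ℂ) (dir A i)) := by
    unfold refl
    rw [map_mul, map_div₀, Complex.conj_conj, Complex.conj_conj]
    field_simp
  rw [e]
  simp only [mul_im, mul_re, ofReal_re, ofReal_im, conj_re, conj_im]
  ring

theorem LEN2_mom_pos {A : Fin 3 → ℂ} (hA : AffineIndependent ℝ A) {i j m : Fin 3} (hij : i ≠ j)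
    (hmi : m ≠ i) (hmj : m ≠ j) {p u : ℂ} {ℓ : ℝ} (hp : p ∈ side A i)
    (hq : p - ℓ * u ∈ side A j) : ((starRingEnd ℂ) u * (p - A m)).im ≠ 0 := by
  obtain ⟨r, hr0, hr⟩ := LEN2_side hmi hp
  obtain ⟨s, hs0, hs⟩ := LEN2_side hmj hq
  have hd := LEN2_dir hA hij
  intro h
  have h1 : (ℓ : ℂ) * u = r * dir A i - s * dir A j := by
    linear_combination hr - hs
  have h2 : ((starRingEnd ℂ) ((ℓ : ℂ) * u) * (p - A m)).im = 0 := by
    rw [map_mul, Complex.conj_ofReal, mul_assoc, Complex.im_ofReal_mul, h, mul_zero]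
  rw [h1, hr] at h2
  have h3 : ((starRingEnd ℂ) ((r : ℂ) * dir A i - s * dir A j) * ((r : ℂ) * dir A i)).im
      = -(s * r) * ((starRingEnd ℂ) (dir A j) * dir A i).im := by
    simp only [map_sub, map_mul, mul_im, mul_re, sub_re, sub_im, ofReal_re, ofReal_im, conj_re,
      conj_im, Complex.conj_ofReal]
    ring
  rw [h3] at h2
  rcases mul_eq_zero.1 h2 with h4 | h4
  · exact (mul_ne_zero hs0 hr0) (neg_eq_zero.1 h4)
  · exact hd h4

end Vale.Agent.P099
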