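import Vale.Agent.P099.Refl
import Vale.Agent.P099.LenMom

/-! # P099, module LEN: no accumulation of reflections

A chord from `p ∈ side i` to `q ∈ side j`, `i ≠ j`, has the common adjacent vertex `A m`, `m ≠ i, j`.
LEN1: `c * ‖p - A m‖ ≤ ‖p - q‖`, `c * ‖q - A m‖ ≤ ‖p - q‖` (distance of a point to a line; `c` = smallest sine of
the angles).
LEN2: the angular momentum `|cr (u) (p - A m)|`, `cr a b = (conj a * b).im`, is constant along a chord and
under `refl A i` for `p ∈ side i`, `m ≠ i` (`p - A m` is a real multiple of `dir A i`, `side_dir`, and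
`cr (refl A i u) (dir A i) = - cr u (dir A i)`); it is at most `‖p - A m‖`, and it is positive for a
chord between two different open sides at `A m`.
LEN: if the sums are bounded then `ℓ k → 0`.  If `m_k ≠ m_{k+1}` (the vertices of the chords `k`, `k+1`) then
`p (k+1)` is on the side joining `A m_k` and `A m_{k+1}`, so
`ℓ k + ℓ (k+1) ≥ c (‖p(k+1) - A m_k‖ + ‖p(k+1) - A m_{k+1}‖) ≥ c * ‖A m_k - A m_{k+1}‖`.  Hence for large `k` all
`m_k` are equal, the angular momentum `D > 0` is constant and `ℓ k ≥ c D`: contradiction. -/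

set_option autoImplicit false

namespace Vale.Agent.P099

open Complex

theorem LEN1_sum {M : Type} [AddCommMonoid M] {i j m : Fin 3} (hij : i ≠ j) (hmi : m ≠ i)
    (hmj : m ≠ j) (f : Fin 3 → M) : ∑ k, f k = f i + f j + f m := by
  have huniv : (Finset.univ : Finset (Fin 3)) = {i, j, m} := by
    revert i j m
    decide
  rw [huniv, Finset.sum_insert, Finset.sum_pair hmj.symm, add_assoc]
  simp only [Finset.mem_insert, Finset.mem_singleton, not_or]
  exact ⟨hij, hmi.symm⟩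

theorem LEN1_det {A : Fin 3 → ℂ} (hA : AffineIndependent ℝ A) {i j m : Fin 3} (hij : i ≠ j)
    (hmi : m ≠ i) (hmj : m ≠ j) : ((starRingEnd ℂ) (A i - A m) * (A j - A m)).im ≠ 0 := by
  intro h0
  have hb : A i - A m ≠ 0 := sub_ne_zero.2 (hA.injective.ne hmi.symm)
  have hb' : (starRingEnd ℂ) (A i - A m) ≠ 0 := (map_ne_zero _).2 hb
  obtain ⟨W, -, -, -, -, hW⟩ := exists_weight hA
  set R : ℝ := ((starRingEnd ℂ) (A i - A m) * (A j - A m)).re with hR
  have h1 : (starRingEnd ℂ) (A i - A m) * (A j - A m) = (R : ℂ) := by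
    apply Complex.ext
    · rw [Complex.ofReal_re]
    · rw [Complex.ofReal_im, h0]
  set r : ℝ := R / Complex.normSq (A i - A m) with hr
  have h2 : A j - A m = (r : ℂ) * (A i - A m) := by
    have h3 : (Complex.normSq (A i - A m) : ℂ) = (starRingEnd ℂ) (A i - A m) * (A i - A m) :=
      Complex.normSq_eq_conj_mul_self
    have h4 : (starRingEnd ℂ) (A i - A m) * (A j - A m) =
        (starRingEnd ℂ) (A i - A m) * ((r : ℂ) * (A i - A m)) := by
      rw [h1, hr, Complex.ofReal_div, h3]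
      field_simp
    exact mul_left_cancel₀ hb' h4
  have e1 := hW (fun k => if k = j then 1 else 0) (by
    rw [LEN1_sum hij hmi hmj]; simp [hij, hmj]) j
  have e2 := hW (fun k => if k = m then 1 - r else if k = i then r else 0) (by
    rw [LEN1_sum hij hmi hmj]; simp [hij.symm, hmi.symm, hmj.symm]) j
  have e3 : (∑ k, ((if k = j then (1 : ℝ) else 0 : ℝ) : ℂ) * A k) = A j := by
    rw [LEN1_sum hij hmi hmj]; simp [hij, hmj]
  have e4 : (∑ k, ((if k = m then 1 - r else if k = i then r else 0 : ℝ) : ℂ) * A k) = A j := by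
    rw [LEN1_sum hij hmi hmj]
    simp [hij.symm, hmi.symm, hmj.symm]
    linear_combination -h2
  rw [e3] at e1
  rw [e4] at e2
  simp only [if_true] at e1
  rw [if_neg hmj.symm, if_neg hij.symm] at e2
  rw [e1] at e2
  exact one_ne_zero e2

theorem LEN1_pt {A : Fin 3 → ℂ} {i j m : Fin 3} (hij : i ≠ j)
    (hmi : m ≠ i) (hmj : m ≠ j) {p : ℂ} (hp : p ∈ side A i) :
    ∃ s : ℝ, 0 < s ∧ p - A m = s * (A j - A m) := by
  obtain ⟨w, hw0, hw, hsum, hz⟩ := hp
  refine ⟨w j, hw j hij.symm, ?_⟩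
  rw [LEN1_sum hij hmi hmj] at hsum hz
  rw [hw0] at hsum hz
  have h1 : w m = 1 - w j := by linarith
  rw [hz, h1]
  push_cast
  ring

theorem LEN1_est {a b : ℂ} (ha : a ≠ 0) (hb : b ≠ 0) (s t : ℝ) (hs : 0 < s) {c : ℝ}
    (hc : c * (‖a‖ * ‖b‖) ≤ |((starRingEnd ℂ) b * a).im|) :
    c * ‖(s : ℂ) * a‖ ≤ ‖(s : ℂ) * a - t * b‖ := by
  have hbn : 0 < ‖b‖ := norm_pos_iff.2 hb
  have h1 : ((starRingEnd ℂ) b * ((s : ℂ) * a - t * b)).im = s * ((starRingEnd ℂ) b * a).im := by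
    have h2 : (starRingEnd ℂ) b * ((s : ℂ) * a - t * b) =
        (s : ℂ) * ((starRingEnd ℂ) b * a) - (t : ℂ) * ((starRingEnd ℂ) b * b) := by ring
    rw [h2, ← Complex.normSq_eq_conj_mul_self, Complex.sub_im, Complex.im_ofReal_mul,
      Complex.im_ofReal_mul, Complex.ofReal_im, mul_zero, sub_zero]
  have h3 : |((starRingEnd ℂ) b * ((s : ℂ) * a - t * b)).im| ≤ ‖b‖ * ‖(s : ℂ) * a - t * b‖ := by
    refine (Complex.abs_im_le_norm _).trans ?_
    rw [norm_mul, Complex.norm_conj]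
  rw [h1, abs_mul, abs_of_pos hs] at h3
  have h4 : ‖(s : ℂ) * a‖ = s * ‖a‖ := by
    rw [norm_mul, Complex.norm_real, Real.norm_eq_abs, abs_of_pos hs]
  rw [h4]
  have h5 : s * (c * (‖a‖ * ‖b‖)) ≤ ‖b‖ * ‖(s : ℂ) * a - t * b‖ :=
    (mul_le_mul_of_nonneg_left hc hs.le).trans h3
  have h6 : ‖b‖ * (c * (s * ‖a‖)) ≤ ‖b‖ * ‖(s : ℂ) * a - t * b‖ := by
    calc ‖b‖ * (c * (s * ‖a‖)) = s * (c * (‖a‖ * ‖b‖)) := by ring
      _ ≤ _ := h5
  exact le_of_mul_le_mul_left h6 hbn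

theorem chord {A : Fin 3 → ℂ} (hA : AffineIndependent ℝ A) :
    ∃ c > 0, ∀ (i j m : Fin 3) (p q : ℂ), i ≠ j → m ≠ i → m ≠ j → p ∈ side A i → q ∈ side A j →
      c * ‖p - A m‖ ≤ ‖p - q‖ ∧ c * ‖q - A m‖ ≤ ‖p - q‖ := by
  let κ : Fin 3 × Fin 3 × Fin 3 → ℝ := fun t =>
    if t.1 ≠ t.2.1 ∧ t.2.2 ≠ t.1 ∧ t.2.2 ≠ t.2.1 then
      |((starRingEnd ℂ) (A t.1 - A t.2.2) * (A t.2.1 - A t.2.2)).im| /
        (‖A t.2.1 - A t.2.2‖ * ‖A t.1 - A t.2.2‖) else 1
  have hκ : ∀ t, 0 < κ t := by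
    intro t
    by_cases h : t.1 ≠ t.2.1 ∧ t.2.2 ≠ t.1 ∧ t.2.2 ≠ t.2.1
    · simp only [κ, if_pos h]
      have h1 := LEN1_det hA h.1 h.2.1 h.2.2
      have h2 : 0 < ‖A t.2.1 - A t.2.2‖ := norm_pos_iff.2 (sub_ne_zero.2 (hA.injective.ne h.2.2.symm))
      have h3 : 0 < ‖A t.1 - A t.2.2‖ := norm_pos_iff.2 (sub_ne_zero.2 (hA.injective.ne h.2.1.symm))
      exact div_pos (abs_pos.2 h1) (mul_pos h2 h3)
    · simp only [κ, if_neg h]
      exact one_pos
  obtain ⟨t0, ht0⟩ := Finite.exists_min κ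
  refine ⟨κ t0, hκ t0, ?_⟩
  intro i j m p q hij hmi hmj hp hq
  obtain ⟨s, hs, hs'⟩ := LEN1_pt hij hmi hmj hp
  obtain ⟨t, ht, ht'⟩ := LEN1_pt hij.symm hmj hmi hq
  have ha : A j - A m ≠ 0 := sub_ne_zero.2 (hA.injective.ne hmj.symm)
  have hb : A i - A m ≠ 0 := sub_ne_zero.2 (hA.injective.ne hmi.symm)
  have hc1 : κ t0 * (‖A j - A m‖ * ‖A i - A m‖) ≤
      |((starRingEnd ℂ) (A i - A m) * (A j - A m)).im| := by
    have h1 := ht0 (i, j, m)
    simp only [κ, if_pos (⟨hij, hmi, hmj⟩ : i ≠ j ∧ m ≠ i ∧ m ≠ j)] at h1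
    have h2 : 0 < ‖A j - A m‖ * ‖A i - A m‖ := mul_pos (norm_pos_iff.2 ha) (norm_pos_iff.2 hb)
    exact (le_div_iff₀ h2).1 h1
  have hc2 : κ t0 * (‖A i - A m‖ * ‖A j - A m‖) ≤
      |((starRingEnd ℂ) (A j - A m) * (A i - A m)).im| := by
    have h3 : (starRingEnd ℂ) (A j - A m) * (A i - A m) =
        (starRingEnd ℂ) ((starRingEnd ℂ) (A i - A m) * (A j - A m)) := by
      rw [map_mul, Complex.conj_conj]; ring
    rw [h3, Complex.conj_im, abs_neg, mul_comm ‖A i - A m‖]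
    exact hc1
  have hpq : p - q = s * (A j - A m) - t * (A i - A m) := by
    rw [← hs', ← ht']; ring
  constructor
  · rw [hs', hpq]
    exact LEN1_est ha hb s t hs hc1
  · rw [ht', hpq, norm_sub_rev]
    exact LEN1_est hb ha t s ht hc2

theorem mom_refl {A : Fin 3 → ℂ} (hA : AffineIndependent ℝ A) {i m : Fin 3} (hm : m ≠ i)
    {p : ℂ} (hp : p ∈ side A i) (u : ℂ) :
    ((starRingEnd ℂ) (refl A i u) * (p - A m)).im = -((starRingEnd ℂ) u * (p - A m)).im := by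
  exact LEN2_mom_refl hm hp u

theorem mom_pos {A : Fin 3 → ℂ} (hA : AffineIndependent ℝ A) {i j m : Fin 3} (hij : i ≠ j)
    (hmi : m ≠ i) (hmj : m ≠ j) {p u : ℂ} {ℓ : ℝ} (hp : p ∈ side A i)
    (hq : p - ℓ * u ∈ side A j) : ((starRingEnd ℂ) u * (p - A m)).im ≠ 0 := by
  exact LEN2_mom_pos hA hij hmi hmj hp hq

private theorem len3_third : ∀ a b : Fin 3, ∃ m : Fin 3, m ≠ a ∧ m ≠ b := by
  decide

theorem no_zeno {A : Fin 3 → ℂ} (hA : AffineIndependent ℝ A) (p : ℕ → ℂ) (i : ℕ → Fin 3)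
    (u : ℕ → ℂ) (ℓ : ℕ → ℝ) (hp : ∀ k, p k ∈ side A (i k)) (hu : ∀ k, ‖u k‖ = 1)
    (hi : ∀ k, i (k + 1) ≠ i k) (hℓ : ∀ k, 0 < ℓ k)
    (hu' : ∀ k, u (k + 1) = refl A (i k) (u k))
    (hp' : ∀ k, p (k + 1) = p k - ℓ k * u (k + 1)) (T : ℝ) :
    ∃ n : ℕ, T ≤ ∑ k ∈ Finset.range n, ℓ k := by
  by_contra hcon
  push Not at hcon
  have hsum : Summable ℓ :=
    summable_of_sum_range_le (fun k => (hℓ k).le) (fun n => (hcon n).le)
  have hlim : Filter.Tendsto ℓ Filter.atTop (nhds 0) := hsum.tendsto_atTop_zero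
  have hlim1 : Filter.Tendsto (fun k => ℓ (k + 1)) Filter.atTop (nhds 0) :=
    hlim.comp (Filter.tendsto_add_atTop_nat 1)
  have hlim2 : Filter.Tendsto (fun k => ℓ k + ℓ (k + 1)) Filter.atTop (nhds 0) := by
    have := hlim.add hlim1
    rwa [add_zero] at this
  choose m hm1 hm2 using fun k => len3_third (i k) (i (k + 1))
  obtain ⟨c, hc, hch⟩ := chord hA
  have hlen : ∀ k, ‖p k - p (k + 1)‖ = ℓ k := by
    intro k
    rw [hp' k, sub_sub_cancel, norm_mul, hu, mul_one, Complex.norm_real, Real.norm_eq_abs,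
      abs_of_pos (hℓ k)]
  have hck : ∀ k, c * ‖p k - A (m k)‖ ≤ ℓ k ∧ c * ‖p (k + 1) - A (m k)‖ ≤ ℓ k := by
    intro k
    have h := hch (i k) (i (k + 1)) (m k) (p k) (p (k + 1)) (hi k).symm (hm1 k) (hm2 k)
      (hp k) (hp (k + 1))
    rwa [hlen k] at h
  have hev : ∀ᶠ k in Filter.atTop, ∀ a b : Fin 3, a ≠ b → ℓ k + ℓ (k + 1) < c * ‖A a - A b‖ := by
    rw [Filter.eventually_all]
    intro a
    rw [Filter.eventually_all]
    intro b
    by_cases hab : a = b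
    · exact Filter.Eventually.of_forall fun k h => absurd hab h
    · have hpos : 0 < c * ‖A a - A b‖ :=
        mul_pos hc (norm_pos_iff.2 (sub_ne_zero.2 (hA.injective.ne hab)))
      filter_upwards [hlim2.eventually (gt_mem_nhds hpos)] with k hk _
      exact hk
  obtain ⟨N, hN⟩ := Filter.eventually_atTop.1 hev
  have hmst : ∀ k, N ≤ k → m (k + 1) = m k := by
    intro k hk
    by_contra hne
    have h1 := hN k hk (m (k + 1)) (m k) hne
    have h2 := (hck k).2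
    have h3 := (hck (k + 1)).1
    have h4 : ‖A (m (k + 1)) - A (m k)‖ ≤ ‖p (k + 1) - A (m (k + 1))‖ + ‖p (k + 1) - A (m k)‖ := by
      have h5 : A (m (k + 1)) - A (m k) = (p (k + 1) - A (m k)) - (p (k + 1) - A (m (k + 1))) := by
        ring
      rw [h5]
      refine (norm_sub_le _ _).trans ?_
      rw [add_comm]
    have h6 := mul_le_mul_of_nonneg_left h4 hc.le
    rw [mul_add] at h6
    linarith
  have hmN : ∀ k, N ≤ k → m k = m N := by
    intro k hk
    induction k, hk using Nat.le_induction with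
    | base => rfl
    | succ k hk ih => rw [hmst k hk, ih]
  have hmom : ∀ k, N ≤ k → ((starRingEnd ℂ) (u (k + 1 + 1)) * (p (k + 1) - A (m N))).im =
      -((starRingEnd ℂ) (u (k + 1)) * (p k - A (m N))).im := by
    intro k hk
    have hne : m N ≠ i (k + 1) := by
      rw [← hmN k hk]
      exact hm2 k
    rw [hu' (k + 1), mom_refl hA hne (hp (k + 1)) (u (k + 1)), hp' k]
    have h1 : (starRingEnd ℂ) (u (k + 1)) * (p k - ℓ k * u (k + 1) - A (m N)) =
        (starRingEnd ℂ) (u (k + 1)) * (p k - A (m N)) -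
          ((ℓ k * (‖u (k + 1)‖ ^ 2 : ℝ) : ℝ) : ℂ) := by
      have h2 : (starRingEnd ℂ) (u (k + 1)) * u (k + 1) = ((‖u (k + 1)‖ ^ 2 : ℝ) : ℂ) := by
        rw [← Complex.normSq_eq_norm_sq, ← Complex.normSq_eq_conj_mul_self]
      rw [Complex.ofReal_mul, ← h2]
      ring
    rw [h1, Complex.sub_im, Complex.ofReal_im, sub_zero]
  have hmom' : ∀ k, N ≤ k → |((starRingEnd ℂ) (u (k + 1)) * (p k - A (m N))).im| =
      |((starRingEnd ℂ) (u (N + 1)) * (p N - A (m N))).im| := by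
    intro k hk
    induction k, hk using Nat.le_induction with
    | base => rfl
    | succ k hk ih => rw [hmom k hk, abs_neg, ih]
  have hne : ((starRingEnd ℂ) (u (N + 1)) * (p N - A (m N))).im ≠ 0 := by
    refine mom_pos hA (hi N).symm (hm1 N) (hm2 N) (hp N) (ℓ := ℓ N) ?_
    rw [← hp' N]
    exact hp (N + 1)
  have hbd : ∀ k, N ≤ k → c * |((starRingEnd ℂ) (u (N + 1)) * (p N - A (m N))).im| ≤ ℓ k := by
    intro k hk
    rw [← hmom' k hk]
    refine le_trans (mul_le_mul_of_nonneg_left ?_ hc.le) (hck k).1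
    refine (Complex.abs_im_le_norm _).trans ?_
    rw [norm_mul, Complex.norm_conj, hu, one_mul, hmN k hk]
  have hfin : c * |((starRingEnd ℂ) (u (N + 1)) * (p N - A (m N))).im| ≤ 0 :=
    ge_of_tendsto hlim (Filter.eventually_atTop.2 ⟨N, hbd⟩)
  exact absurd hfin (not_le.2 (mul_pos hc (abs_pos.2 hne)))

end Vale.Agent.P099
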