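import Vale.Agent.P099.Chain
import Vale.Agent.P099.Len

/-! # P099, module LONG: beams of arbitrary length (choose sequences of states by `st_init`,
`st_step`, then `no_zeno` and `good_end`) -/

set_option autoImplicit false

namespace Vale.Agent.P099

open Complex

theorem long {A : Fin 3 → ℂ} (hA : AffineIndependent ℝ A) {f : ℂ → ℂ → ℂ} {lam L : ℝ}
    (hf : Eig A lam f) (hL : LipDir A L f) {x U : ℂ} (hx : x ∈ tri A) (hU : ‖U‖ = 1)
    (hS : x ∉ Sing A U) (T : ℝ) : ∃ t : ℝ, T ≤ t ∧ Beam f lam L x U t := by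
  obtain ⟨p0, i0, t0, h0⟩ := st_init hA hf hx hU hS
  let S := {s : ℂ × Fin 3 × ℂ × List (Fin 3) × ℝ //
    St A f lam L x U s.1 s.2.1 s.2.2.1 s.2.2.2.1 s.2.2.2.2}
  have step : ∀ s : S, ∃ s' : S, s'.1.2.1 ≠ s.1.2.1 ∧ 0 < s'.1.2.2.2.2 - s.1.2.2.2.2 ∧
      s'.1.2.2.1 = refl A s.1.2.1 s.1.2.2.1 ∧
      s'.1.1 = s.1.1 - ((s'.1.2.2.2.2 - s.1.2.2.2.2 : ℝ) : ℂ) * s'.1.2.2.1 := by
    rintro ⟨⟨p, i, u, l, t⟩, hs⟩
    obtain ⟨j, ℓ, hj, hℓ, h⟩ := st_step hA hf hS hs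
    refine ⟨⟨(p - ℓ * refl A i u, j, refl A i u, l ++ [i], t + ℓ), h⟩, hj, ?_, rfl, ?_⟩
    · change 0 < t + ℓ - t
      linarith
    · change p - ℓ * refl A i u = p - ((t + ℓ - t : ℝ) : ℂ) * refl A i u
      rw [add_sub_cancel_left]
  choose g hg using step
  let s : ℕ → S := fun n => Nat.rec ⟨(p0, i0, U, [], t0), h0⟩ (fun _ a => g a) n
  have hs : ∀ n, s (n + 1) = g (s n) := fun n => rfl
  obtain ⟨n, hn⟩ := no_zeno hA (fun k => (s k).1.1) (fun k => (s k).1.2.1)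
    (fun k => (s k).1.2.2.1) (fun k => (s (k + 1)).1.2.2.2.2 - (s k).1.2.2.2.2)
    (fun k => (s k).2.hp) (fun k => (s k).2.hu)
    (fun k => by rw [hs]; exact (hg (s k)).1) (fun k => by rw [hs]; exact (hg (s k)).2.1)
    (fun k => by rw [hs]; exact (hg (s k)).2.2.1)
    (fun k => by
      have := (hg (s k)).2.2.2
      rw [← hs] at this
      exact this) (T + 1)
  rw [Finset.sum_range_sub (fun k => (s k).1.2.2.2.2)] at hn
  obtain ⟨t', h1, h2⟩ := good_end hA hf hL (s n).2.hu (s n).2.good 1 one_pos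
  have := (s 0).2.pos
  exact ⟨t', by linarith, h2⟩

/-- for every point there is a short beam (`beam_init` at `x - t U`, `tr_free`) -/
theorem short {A : Fin 3 → ℂ} (hA : AffineIndependent ℝ A) {f : ℂ → ℂ → ℂ} {lam L : ℝ}
    (hf : Eig A lam f) (hL : LipDir A L f) {x U : ℂ} (hx : x ∈ tri A) (hU : ‖U‖ = 1) :
    ∃ t : ℝ, 0 < t ∧ Beam f lam L x U t := by
  have hcont : Continuous fun t : ℝ => x - t * U := by fun_prop
  have hopen : IsOpen ((fun t : ℝ => x - t * U) ⁻¹' tri A) := (isOpen_tri hA).preimage hcont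
  have h0 : (0 : ℝ) ∈ (fun t : ℝ => x - t * U) ⁻¹' tri A := by
    change x - ((0 : ℝ) : ℂ) * U ∈ tri A
    rwa [ofReal_zero, zero_mul, sub_zero]
  obtain ⟨ε, hε, hb⟩ := Metric.isOpen_iff.1 hopen 0 h0
  have h1 : x - ((ε / 2 : ℝ) : ℂ) * U ∈ tri A := by
    apply hb
    rw [Metric.mem_ball, Real.dist_eq, sub_zero, abs_of_pos (by positivity)]
    linarith
  have e : x - ((ε / 2 : ℝ) : ℂ) * U + ((ε / 2 : ℝ) : ℂ) * U = x := by ring
  have h2 := tr_free hA hf hU h1 (ε / 2) (by rw [e]; exact hx) 0 (beam_init hA hf hL h1 hU)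
  rw [e, zero_add] at h2
  exact ⟨ε / 2, by positivity, h2⟩

end Vale.Agent.P099
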