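import Vale.Agent.P099.Tri

/-! # P099, module REF: algebra of the reflections -/

set_option autoImplicit false

namespace Vale.Agent.P099

open Complex

theorem norm_refl {A : Fin 3 → ℂ} (hA : AffineIndependent ℝ A) (i : Fin 3) (u : ℂ) :
    ‖refl A i u‖ = ‖u‖ := by
  have hd := dir_ne hA i
  have h1 : ‖dir A i‖ ≠ 0 := norm_ne_zero_iff.2 hd
  unfold refl
  rw [norm_mul, norm_div, Complex.norm_conj, Complex.norm_conj, div_self h1, one_mul]

theorem refl_refl {A : Fin 3 → ℂ} (hA : AffineIndependent ℝ A) (i : Fin 3) (u : ℂ) :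
    refl A i (refl A i u) = u := by
  have hd := dir_ne hA i
  have hd' : (starRingEnd ℂ) (dir A i) ≠ 0 := (map_ne_zero _).2 hd
  unfold refl
  rw [map_mul, map_div₀, Complex.conj_conj, Complex.conj_conj]
  field_simp

theorem refl_add (A : Fin 3 → ℂ) (i : Fin 3) (u v : ℂ) :
    refl A i (u + v) = refl A i u + refl A i v := by
  unfold refl
  rw [map_add, mul_add]

theorem refl_real (A : Fin 3 → ℂ) (i : Fin 3) (r : ℝ) (u : ℂ) :
    refl A i (r * u) = r * refl A i u := by
  unfold refl
  rw [map_mul, Complex.conj_ofReal]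
  ring

theorem refl_mul (A : Fin 3 → ℂ) (i : Fin 3) (a u : ℂ) :
    refl A i (u * a) = refl A i u * (starRingEnd ℂ) a := by
  unfold refl
  rw [map_mul]
  ring

theorem refl_dir {A : Fin 3 → ℂ} (hA : AffineIndependent ℝ A) (i : Fin 3) :
    refl A i (dir A i) = dir A i := by
  have hd := dir_ne hA i
  have hd' : (starRingEnd ℂ) (dir A i) ≠ 0 := (map_ne_zero _).2 hd
  unfold refl
  exact div_mul_cancel₀ _ hd'

/-- `u - refl A i u` is orthogonal to the side -/
theorem inner_refl {A : Fin 3 → ℂ} (hA : AffineIndependent ℝ A) (i : Fin 3) (z u : ℂ) :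
    (refl A i z * (starRingEnd ℂ) (refl A i u)).re = (z * (starRingEnd ℂ) u).re := by
  have hd := dir_ne hA i
  have hd' : (starRingEnd ℂ) (dir A i) ≠ 0 := (map_ne_zero _).2 hd
  have h1 : refl A i z * (starRingEnd ℂ) (refl A i u) =
      (starRingEnd ℂ) (z * (starRingEnd ℂ) u) := by
    unfold refl
    rw [map_mul, map_div₀, Complex.conj_conj, Complex.conj_conj, map_mul, Complex.conj_conj]
    field_simp
  rw [h1, Complex.conj_re]

theorem rho_side {A : Fin 3 → ℂ} (hA : AffineIndependent ℝ A) {i : Fin 3} {p : ℂ}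
    (hp : p ∈ side A i) : rho A i p = p := by
  obtain ⟨r, hr⟩ := side_dir (A := A) (i := i) (m := i + 1) (by omega) hp
  unfold rho
  rw [hr, refl_real, refl_dir hA, ← hr]
  ring

theorem rho_add (A : Fin 3 → ℂ) (i : Fin 3) (z v : ℂ) : rho A i (z + v) = rho A i z + refl A i v := by
  unfold rho
  rw [show z + v - A (i + 1) = (z - A (i + 1)) + v by ring, refl_add, add_assoc]

theorem word_append (A : Fin 3 → ℂ) (l l' : List (Fin 3)) (z : ℂ) :
    word A (l ++ l') z = word A l (word A l' z) := by
  induction l with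
  | nil => rfl
  | cons i l ih =>
    show rho A i (word A (l ++ l') z) = rho A i (word A l (word A l' z))
    rw [ih]

theorem wlin_append (A : Fin 3 → ℂ) (l l' : List (Fin 3)) (z : ℂ) :
    wlin A (l ++ l') z = wlin A l (wlin A l' z) := by
  induction l with
  | nil => rfl
  | cons i l ih =>
    show refl A i (wlin A (l ++ l') z) = refl A i (wlin A l (wlin A l' z))
    rw [ih]

theorem word_add (A : Fin 3 → ℂ) (l : List (Fin 3)) (z v : ℂ) :
    word A l (z + v) = word A l z + wlin A l v := by
  induction l with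
  | nil => rfl
  | cons i l ih =>
    show rho A i (word A l (z + v)) = rho A i (word A l z) + refl A i (wlin A l v)
    rw [ih, rho_add]

theorem wlin_real (A : Fin 3 → ℂ) (l : List (Fin 3)) (r : ℝ) (u : ℂ) :
    wlin A l (r * u) = r * wlin A l u := by
  induction l with
  | nil => rfl
  | cons i l ih =>
    show refl A i (wlin A l (r * u)) = r * refl A i (wlin A l u)
    rw [ih, refl_real]

end Vale.Agent.P099
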