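import Vale.Agent.P099.Refl

/-! # P099, module SING: on a line perpendicular to `u` only countably many points are singular
(for each `l`, `j` at most one `s`: `s = ((word A l (A j) - x0) * conj (u * I)).re`) -/

set_option autoImplicit false

namespace Vale.Agent.P099

open Complex

theorem sing_countable (A : Fin 3 → ℂ) (x0 : ℂ) {u : ℂ} (hu : ‖u‖ = 1) :
    {s : ℝ | x0 + s * (u * I) ∈ Sing A u}.Countable := by
  refine Set.Countable.mono ?_ (Set.countable_range
    (fun q : List (Fin 3) × Fin 3 => ((word A q.1 (A q.2) - x0) * (starRingEnd ℂ) (u * I)).re))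
  rintro s ⟨l, j, τ, -, h⟩
  refine ⟨(l, j), ?_⟩
  have h1 : u * (starRingEnd ℂ) u = 1 := by
    rw [mul_conj, normSq_eq_norm_sq, hu]
    norm_num
  have h2 : (word A l (A j) - x0) * (starRingEnd ℂ) (u * I) = (s : ℂ) + (τ : ℂ) * I := by
    rw [← h, map_mul, conj_I]
    have h3 := I_mul_I
    linear_combination (-(s : ℂ) * (I * I) + (τ : ℂ) * I) * h1 - (s : ℂ) * h3
  show ((word A l (A j) - x0) * (starRingEnd ℂ) (u * I)).re = s
  rw [h2]
  simp

end Vale.Agent.P099
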