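import Vale.Agent.P099.Tri

/-! # P099, module SLOPE: the beam condition bounds the slope in the perpendicular direction

Use the beam condition with `r = √(t² + s²)` and `θ = arctan (s / t)`:
`x - t u + r u e^{iθ} = x + s (u I)`, `‖e^{iθ} - 1‖ ≤ |θ| ≤ |s| / t`, `0 ≤ r - t ≤ s² / (2 t)`, then `LipDir` at
the point `x + s (u I)` between `u e^{iθ}` and `u`. (If `L < 0`, note that `LipDir` forces `0 ≤ L` here.) -/

set_option autoImplicit false

namespace Vale.Agent.P099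

open Complex

theorem slope {A : Fin 3 → ℂ} (hA : AffineIndependent ℝ A) {f : ℂ → ℂ → ℂ} {lam L : ℝ}
    (hL0 : 0 ≤ L) (hL : LipDir A L f) {x u : ℂ} {t : ℝ} (hx : x ∈ tri A) (hu : ‖u‖ = 1)
    (ht : 0 < t) (hB : Beam f lam L x u t) :
    ∃ ε > 0, ∃ C : ℝ, ∀ s : ℝ, |s| < ε →
      ‖f (x + s * (u * I)) u - f x u‖ ≤ (2 * L / t) * |s| + C * s ^ 2 := by
  obtain ⟨ε₀, hε₀, hB⟩ := hB
  have hw : Continuous fun s : ℝ => (t : ℂ) + s * I := by fun_prop
  have hw0 : (t : ℂ) + ((0 : ℝ) : ℂ) * I = t := by simp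
  have e1 : ∀ᶠ s : ℝ in nhds 0, |arg ((t : ℂ) + s * I)| < ε₀ := by
    have h1 : ContinuousAt (fun s : ℝ => |arg ((t : ℂ) + s * I)|) 0 := by
      refine ContinuousAt.abs (ContinuousAt.comp (g := arg) ?_ hw.continuousAt)
      refine continuousAt_arg ?_
      rw [hw0]
      exact Complex.ofReal_mem_slitPlane.2 ht
    have h2 : |arg ((t : ℂ) + ((0 : ℝ) : ℂ) * I)| < ε₀ := by
      rw [hw0, Complex.arg_ofReal_of_nonneg ht.le, abs_zero]
      exact hε₀
    exact h1.eventually (gt_mem_nhds h2)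
  have e2 : ∀ᶠ s : ℝ in nhds 0, |‖(t : ℂ) + s * I‖ - t| < ε₀ := by
    have h1 : ContinuousAt (fun s : ℝ => |‖(t : ℂ) + s * I‖ - t|) 0 :=
      ((hw.norm.sub continuous_const).abs).continuousAt
    have h2 : |‖(t : ℂ) + ((0 : ℝ) : ℂ) * I‖ - t| < ε₀ := by
      rw [hw0, Complex.norm_real, Real.norm_eq_abs, abs_of_pos ht, sub_self, abs_zero]
      exact hε₀
    exact h1.eventually (gt_mem_nhds h2)
  have e3 : ∀ᶠ s : ℝ in nhds 0, x + s * (u * I) ∈ tri A := by
    have h1 : Continuous fun s : ℝ => x + s * (u * I) := by fun_prop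
    refine h1.continuousAt.eventually_mem ((isOpen_tri hA).mem_nhds ?_)
    simpa using hx
  obtain ⟨ε, hε, hs⟩ := Metric.eventually_nhds_iff.1 (e1.and (e2.and e3))
  refine ⟨ε, hε, L / t ^ 2 + |lam| * (‖f x u‖ + 2 * L) / (2 * t), fun s hsε => ?_⟩
  obtain ⟨h1, h2, h3⟩ := hs (y := s) (by rwa [Real.dist_eq, sub_zero])
  set w : ℂ := (t : ℂ) + s * I with hwdef
  set r : ℝ := ‖w‖ with hr
  set θ : ℝ := arg w with hθ
  have hpol : (r : ℂ) * exp (I * θ) = w := by
    rw [mul_comm I]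
    exact Complex.norm_mul_exp_arg_mul_I w
  have hr2 : r ^ 2 = t ^ 2 + s ^ 2 := by
    rw [hr, ← Complex.normSq_eq_norm_sq, hwdef, Complex.normSq_add_mul_I]
  have hr0 : 0 ≤ r := norm_nonneg _
  have hrt : t ≤ r := by
    by_contra hcon
    rw [not_le] at hcon
    nlinarith [sq_nonneg s]
  have hrt2 : r - t ≤ s ^ 2 / (2 * t) := by
    rw [le_div_iff₀ (by positivity)]
    nlinarith
  have hE : ‖exp (I * θ) - 1‖ ≤ |s| / t + s ^ 2 / (2 * t ^ 2) := by
    have a1 : (r : ℂ) * (exp (I * θ) - 1) = s * I + ((t - r : ℝ) : ℂ) := by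
      rw [mul_sub, hpol, mul_one, hwdef]
      push_cast
      ring
    have a2 : r * ‖exp (I * θ) - 1‖ ≤ |s| + (r - t) := by
      have a3 : ‖(r : ℂ) * (exp (I * θ) - 1)‖ = r * ‖exp (I * θ) - 1‖ := by
        rw [norm_mul, Complex.norm_real, Real.norm_eq_abs, abs_of_nonneg hr0]
      rw [← a3, a1]
      refine (norm_add_le _ _).trans (add_le_add ?_ ?_)
      · rw [norm_mul, Complex.norm_real, Complex.norm_I, mul_one, Real.norm_eq_abs]
      · rw [Complex.norm_real, Real.norm_eq_abs, abs_sub_comm, abs_of_nonneg (sub_nonneg.2 hrt)]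
    have a4 : t * ‖exp (I * θ) - 1‖ ≤ |s| + s ^ 2 / (2 * t) :=
      (mul_le_mul_of_nonneg_right hrt (norm_nonneg _)).trans (a2.trans (by linarith))
    have a5 : |s| / t + s ^ 2 / (2 * t ^ 2) = (|s| + s ^ 2 / (2 * t)) / t := by
      field_simp
    rw [a5, le_div_iff₀ ht, mul_comm]
    exact a4
  have hX : x - t * u + r * (u * exp (I * θ)) = x + s * (u * I) := by
    have : (r : ℂ) * (u * exp (I * θ)) = u * (r * exp (I * θ)) := by ring
    rw [this, hpol, hwdef]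
    ring
  have hb := hB θ r h1 h2
  rw [hX] at hb
  have hE1 : ‖exp (I * θ) - 1‖ ≤ 2 := by
    refine (norm_sub_le _ _).trans ?_
    rw [mul_comm I, Complex.norm_exp_ofReal_mul_I, norm_one]
    norm_num
  have hn : ∀ q : ℝ, ‖exp (-(I * (lam * q : ℝ)))‖ = 1 := by
    intro q
    have : -(I * ((lam * q : ℝ) : ℂ)) = ((-(lam * q) : ℝ) : ℂ) * I := by push_cast; ring
    rw [this, Complex.norm_exp_ofReal_mul_I]
  set u' : ℂ := u * exp (I * θ) with hu'
  set X : ℂ := x + s * (u * I) with hXdef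
  have hu'n : ‖u'‖ = 1 := by
    rw [hu', norm_mul, hu, mul_comm I, Complex.norm_exp_ofReal_mul_I, one_mul]
  have hM : ‖f X u'‖ ≤ ‖f x u‖ + 2 * L := by
    have b1 : ‖exp (-(I * (lam * r : ℝ))) * f X u'‖ ≤
        ‖exp (-(I * (lam * t : ℝ))) * f x u‖ + L * ‖exp (I * θ) - 1‖ := by
      have := norm_le_norm_add_norm_sub (exp (-(I * (lam * t : ℝ))) * f x u)
        (exp (-(I * (lam * r : ℝ))) * f X u')
      rw [norm_sub_rev] at this
      linarith
    rw [norm_mul, norm_mul, hn, hn, one_mul, one_mul] at b1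
    have b2 : L * ‖exp (I * θ) - 1‖ ≤ L * 2 := mul_le_mul_of_nonneg_left hE1 hL0
    linarith
  have hd : ‖exp (-(I * (lam * t : ℝ))) - exp (-(I * (lam * r : ℝ)))‖ ≤
      |lam| * (s ^ 2 / (2 * t)) := by
    have c1 : exp (-(I * (lam * t : ℝ))) - exp (-(I * (lam * r : ℝ))) =
        exp (-(I * (lam * r : ℝ))) * (exp (I * ((lam * (r - t) : ℝ) : ℂ)) - 1) := by
      rw [mul_sub, ← Complex.exp_add, mul_one]
      congr 2
      push_cast
      ring
    rw [c1, norm_mul, hn, one_mul]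
    refine Real.norm_exp_I_mul_ofReal_sub_one_le.trans ?_
    rw [Real.norm_eq_abs, abs_mul, abs_of_nonneg (sub_nonneg.2 hrt)]
    exact mul_le_mul_of_nonneg_left hrt2 (abs_nonneg _)
  have g1 : ‖f X u - f X u'‖ ≤ L * ‖exp (I * θ) - 1‖ := by
    have := hL X h3 u u' hu hu'n
    have e : ‖u - u'‖ = ‖exp (I * θ) - 1‖ := by
      have : u - u' = u * -(exp (I * θ) - 1) := by rw [hu']; ring
      rw [this, norm_mul, hu, one_mul, norm_neg]
    rwa [e] at this
  have g2 : ‖f X u' - f x u‖ ≤ L * ‖exp (I * θ) - 1‖ +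
      |lam| * (s ^ 2 / (2 * t)) * (‖f x u‖ + 2 * L) := by
    have e : ‖f X u' - f x u‖ = ‖exp (-(I * (lam * t : ℝ))) * (f X u' - f x u)‖ := by
      rw [norm_mul, hn, one_mul]
    have e' : exp (-(I * (lam * t : ℝ))) * (f X u' - f x u) =
        (exp (-(I * (lam * r : ℝ))) * f X u' - exp (-(I * (lam * t : ℝ))) * f x u) +
        (exp (-(I * (lam * t : ℝ))) - exp (-(I * (lam * r : ℝ)))) * f X u' := by ring
    rw [e, e']
    refine (norm_add_le _ _).trans (add_le_add hb ?_)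
    rw [norm_mul]
    exact mul_le_mul hd hM (norm_nonneg _) (by positivity)
  have g3 : ‖f X u - f x u‖ ≤ ‖f X u - f X u'‖ + ‖f X u' - f x u‖ := by
    have : f X u - f x u = (f X u - f X u') + (f X u' - f x u) := by ring
    rw [this]
    exact norm_add_le _ _
  have g4 : L * ‖exp (I * θ) - 1‖ ≤ L * (|s| / t + s ^ 2 / (2 * t ^ 2)) :=
    mul_le_mul_of_nonneg_left hE hL0
  have g5 : (2 * L / t) * |s| + (L / t ^ 2 + |lam| * (‖f x u‖ + 2 * L) / (2 * t)) * s ^ 2 =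
      2 * (L * (|s| / t + s ^ 2 / (2 * t ^ 2))) +
      |lam| * (s ^ 2 / (2 * t)) * (‖f x u‖ + 2 * L) := by
    field_simp
    ring
  rw [g5]
  linarith

end Vale.Agent.P099
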