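import Vale.Agent.P099.Defs

/-! # P099, module TRI: elementary geometry of the triangle

Write `dir A i = A (i+1) - A (i+2)`.  Affine independence gives `dir A i ≠ 0` and that barycentric
weights are unique and affine (real linear) functions of the point: with
`cr a b = (conj a * b).im`, the weight of `A i` at `z` is `cr (dir A i) (z - A (i+1)) / cr (dir A i) (A i - A (i+1))`
and the denominator is nonzero. -/

set_option autoImplicit false

namespace Vale.Agent.P099

open Complex

theorem dir_ne {A : Fin 3 → ℂ} (hA : AffineIndependent ℝ A) (i : Fin 3) : dir A i ≠ 0 := by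
  unfold dir
  rw [sub_ne_zero]
  refine hA.injective.ne ?_
  revert i
  decide

/-- barycentric weight of the vertex `A i`: a real affine function -/
theorem exists_weight {A : Fin 3 → ℂ} (hA : AffineIndependent ℝ A) :
    ∃ W : Fin 3 → ℂ → ℝ, (∀ i, Continuous (W i)) ∧
      (∀ i z v, ∀ t : ℝ, W i (z + t * v) = W i z + t * (W i (z + v) - W i z)) ∧
      (∀ z, ∑ i, W i z = 1) ∧ (∀ z, z = ∑ i, (W i z : ℂ) * A i) ∧
      (∀ (w : Fin 3 → ℝ), ∑ i, w i = 1 → ∀ i, W i (∑ j, (w j : ℂ) * A j) = w i) := by
  have htop : affineSpan ℝ (Set.range A) = ⊤ := by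
    rw [hA.affineSpan_eq_top_iff_card_eq_finrank_add_one]
    simp [Complex.finrank_real_complex]
  let b : AffineBasis (Fin 3) ℝ ℂ := ⟨A, hA, htop⟩
  have hb : ∀ i, b i = A i := fun i => rfl
  have hsmul : ∀ (r : ℝ) (z : ℂ), r • z = (r : ℂ) * z := fun r z => Complex.real_smul
  refine ⟨fun i z => b.coord i z, fun i => (b.coord i).continuous_of_finiteDimensional, ?_, ?_, ?_, ?_⟩
  · intro i z v t
    have h1 : ∀ w : ℂ, b.coord i (z + w) = (b.coord i).linear w + b.coord i z := by
      intro w
      have := (b.coord i).map_vadd z w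
      rw [vadd_eq_add, vadd_eq_add] at this
      rw [add_comm z w, this]
    show b.coord i (z + (t : ℂ) * v) = b.coord i z + t * (b.coord i (z + v) - b.coord i z)
    rw [h1, h1, ← hsmul, map_smul, smul_eq_mul]
    ring
  · intro z
    exact b.sum_coord_apply_eq_one z
  · intro z
    have h1 := b.linear_combination_coord_eq_self z
    conv_lhs => rw [← h1]
    exact Finset.sum_congr rfl fun i _ => hsmul _ _
  · intro w hw i
    have h1 : (Finset.univ : Finset (Fin 3)).affineCombination ℝ b w = ∑ j, (w j : ℂ) * A j := by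
      rw [Finset.affineCombination_eq_linear_combination _ _ _ hw]
      exact Finset.sum_congr rfl fun i _ => hsmul _ _
    rw [← h1]
    exact b.coord_apply_combination_of_mem (Finset.mem_univ i) hw

theorem isOpen_tri {A : Fin 3 → ℂ} (hA : AffineIndependent ℝ A) : IsOpen (tri A) := by
  obtain ⟨W, hWc, -, hW1, hWz, hWw⟩ := exists_weight hA
  have h1 : tri A = ⋂ i, {z | 0 < W i z} := by
    ext z
    rw [Set.mem_iInter]
    constructor
    · rintro ⟨w, hw, hw1, rfl⟩ i
      show 0 < W i _
      rw [hWw w hw1 i]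
      exact hw i
    · intro h
      exact ⟨fun i => W i z, h, hW1 z, hWz z⟩
  rw [h1]
  exact isOpen_iInter_of_finite fun i => isOpen_lt continuous_const (hWc i)

theorem convex_tri (A : Fin 3 → ℂ) : Convex ℝ (tri A) := by
  rintro x ⟨w, hw, hws, rfl⟩ y ⟨v, hv, hvs, rfl⟩ a b ha hb hab
  refine ⟨fun i => a * w i + b * v i, fun i => ?_, ?_, ?_⟩
  · rcases ha.eq_or_lt with h | h
    · subst h
      have : b = 1 := by linarith
      subst this
      have := hv i
      simpa using this
    · have h1 := mul_pos h (hw i)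
      have h2 := mul_nonneg hb (hv i).le
      exact add_pos_of_pos_of_nonneg h1 h2
  · rw [Finset.sum_add_distrib, ← Finset.mul_sum, ← Finset.mul_sum, hws, hvs, mul_one, mul_one, hab]
  · simp only [Complex.real_smul, Finset.mul_sum, ← Finset.sum_add_distrib]
    refine Finset.sum_congr rfl fun i _ => ?_
    push_cast
    ring

theorem side_nhds {A : Fin 3 → ℂ} {i : Fin 3} {p : ℂ} (hp : p ∈ side A i) :
    ∃ δ > 0, ∀ w : ℝ, |w| < δ → p + w * dir A i ∈ side A i := by
  obtain ⟨v, hi, hv, hs, rfl⟩ := hp
  have h1 : i + 1 ≠ i := by fin_cases i <;> decide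
  have h2 : i + 2 ≠ i := by fin_cases i <;> decide
  have h3 : i + 1 ≠ i + 2 := by fin_cases i <;> decide
  have hall : ∀ j : Fin 3, j = i ∨ j = i + 1 ∨ j = i + 2 := by
    intro j; fin_cases i <;> fin_cases j <;> decide
  have hsum : ∀ (M : Type) [AddCommMonoid M] (F : Fin 3 → M),
      ∑ j, F j = F i + F (i + 1) + F (i + 2) := by
    intro M _ F
    rw [Fin.sum_univ_three]
    fin_cases i
    · rfl
    · change F 0 + F 1 + F 2 = F 1 + F 2 + F 0
      rw [add_assoc, add_comm]
    · change F 0 + F 1 + F 2 = F 2 + F 0 + F 1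
      rw [add_comm, add_assoc]
  refine ⟨min (v (i + 1)) (v (i + 2)), lt_min (hv _ h1) (hv _ h2), fun t ht => ?_⟩
  have ht1 := abs_lt.1 (ht.trans_le (min_le_left _ _))
  have ht2 := abs_lt.1 (ht.trans_le (min_le_right _ _))
  refine ⟨fun j => v j + (if j = i + 1 then t else 0) - (if j = i + 2 then t else 0), ?_, ?_, ?_, ?_⟩
  · simp only [if_neg h1.symm, if_neg h2.symm, hi]; ring
  · intro j hj
    rcases hall j with h | h | h
    · exact absurd h hj
    · subst h
      simp only [if_true, if_neg h3]
      linarith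
    · subst h
      simp only [if_true, if_neg h3.symm]
      linarith
  · rw [hsum] at hs ⊢
    simp only [if_neg h1.symm, if_neg h2.symm, if_true, if_neg h3, if_neg h3.symm]
    linarith
  · unfold dir
    rw [hsum, hsum]
    simp only [if_neg h1.symm, if_neg h2.symm, if_true, if_neg h3, if_neg h3.symm]
    push_cast
    ring

theorem side_ne {A : Fin 3 → ℂ} (i : Fin 3) : ∃ p, p ∈ side A i := by
  refine ⟨_, fun j => if j = i then 0 else 1 / 2, if_pos rfl, fun j hj => ?_, ?_, rfl⟩
  · simp only [if_neg hj]; norm_num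
  · rw [Fin.sum_univ_three]
    fin_cases i
    · change (if (0 : Fin 3) = 0 then (0 : ℝ) else 1 / 2) + (if (1 : Fin 3) = 0 then 0 else 1 / 2) +
        (if (2 : Fin 3) = 0 then 0 else 1 / 2) = 1
      rw [if_pos rfl, if_neg (by decide), if_neg (by decide)]; norm_num
    · change (if (0 : Fin 3) = 1 then (0 : ℝ) else 1 / 2) + (if (1 : Fin 3) = 1 then 0 else 1 / 2) +
        (if (2 : Fin 3) = 1 then 0 else 1 / 2) = 1
      rw [if_pos rfl, if_neg (by decide), if_neg (by decide)]; norm_num
    · change (if (0 : Fin 3) = 2 then (0 : ℝ) else 1 / 2) + (if (1 : Fin 3) = 2 then 0 else 1 / 2) +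
        (if (2 : Fin 3) = 2 then 0 else 1 / 2) = 1
      rw [if_pos rfl, if_neg (by decide), if_neg (by decide)]; norm_num

/-- a point of an open side minus an adjacent vertex is a real multiple of the direction -/
theorem side_dir {A : Fin 3 → ℂ} {i m : Fin 3} (hm : m ≠ i) {p : ℂ} (hp : p ∈ side A i) :
    ∃ r : ℝ, p - A m = r * dir A i := by
  obtain ⟨v, hi, hv, hs, rfl⟩ := hp
  have hsum : ∀ (M : Type) [AddCommMonoid M] (F : Fin 3 → M),
      ∑ j, F j = F i + F (i + 1) + F (i + 2) := by
    intro M _ F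
    rw [Fin.sum_univ_three]
    fin_cases i
    · rfl
    · change F 0 + F 1 + F 2 = F 1 + F 2 + F 0
      rw [add_assoc, add_comm]
    · change F 0 + F 1 + F 2 = F 2 + F 0 + F 1
      rw [add_comm, add_assoc]
  have hall : ∀ j : Fin 3, j = i ∨ j = i + 1 ∨ j = i + 2 := by
    intro j; fin_cases i <;> fin_cases j <;> decide
  rw [hsum] at hs
  rw [hi] at hs
  have hc : (v (i + 1) : ℂ) + v (i + 2) = 1 := by
    have : v (i + 1) + v (i + 2) = 1 := by linarith
    exact_mod_cast this
  rcases hall m with h | h | h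
  · exact absurd h hm
  · refine ⟨-v (i + 2), ?_⟩
    subst h
    rw [hsum, hi]
    unfold dir
    push_cast
    linear_combination (A (i + 1)) * hc
  · refine ⟨v (i + 1), ?_⟩
    subst h
    rw [hsum, hi]
    unfold dir
    push_cast
    linear_combination (A (i + 2)) * hc

end Vale.Agent.P099
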