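import Vale.Agent.P099.Long
import Vale.Agent.P099.Slope
import Vale.Agent.P099.SingC

/-! # P099, module ZERO: constancy along perpendicular segments

`g s = f (x0 + s (u I)) u` is continuous (by `short` and `slope` the increments are `O(|s|)`) and has derivative
`0` at every `s` outside the countable set of `sing_countable` (by `long` and `slope` the slope is at most
`2L/t` for arbitrarily large `t`).  Conclude with
`intervalIntegral.integral_eq_sub_of_hasDeriv_right_off_countable`-type lemmas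
(`MeasureTheory.integral_eq_of_hasDerivAt_off_countable` family), derivative `0`. -/

set_option autoImplicit false

namespace Vale.Agent.P099

open Complex

theorem perp_const {A : Fin 3 → ℂ} (hA : AffineIndependent ℝ A) {f : ℂ → ℂ → ℂ} {lam L : ℝ}
    (hf : Eig A lam f) (hL : LipDir A L f) {x0 u : ℂ} (hu : ‖u‖ = 1) {a b : ℝ} (hab : a ≤ b)
    (h : ∀ s ∈ Set.Icc a b, x0 + (s : ℝ) * (u * I) ∈ tri A) :
    f (x0 + b * (u * I)) u = f (x0 + a * (u * I)) u := by
  have hL' : LipDir A (max L 0) f := fun x hx u v hu hv =>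
    (hL x hx u v hu hv).trans (mul_le_mul_of_nonneg_right (le_max_left _ _) (norm_nonneg _))
  have h0 : 0 ≤ max L 0 := le_max_right _ _
  generalize max L 0 = L0 at hL' h0
  let g : ℝ → ℂ := fun s => f (x0 + s * (u * I)) u
  have key : ∀ s ∈ Set.Icc a b, ∀ t : ℝ, 0 < t → Beam f lam L0 (x0 + (s : ℝ) * (u * I)) u t →
      ∃ ε > 0, ∃ C : ℝ, ∀ k : ℝ, |k| < ε → ‖g (s + k) - g s‖ ≤ (2 * L0 / t) * |k| + C * k ^ 2 := by
    intro s hs t ht hB
    obtain ⟨ε, hε, C, hC⟩ := slope hA h0 hL' (h s hs) hu ht hB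
    refine ⟨ε, hε, C, fun k hk => ?_⟩
    have h1 := hC k hk
    have e : x0 + (s : ℝ) * (u * I) + (k : ℝ) * (u * I) = x0 + ((s + k : ℝ) : ℂ) * (u * I) := by
      push_cast
      ring
    rw [e] at h1
    exact h1
  have hcont : ∀ s ∈ Set.Icc a b, ContinuousAt g s := by
    intro s hs
    obtain ⟨t, ht, hB⟩ := short hA hf hL' (h s hs) hu
    obtain ⟨ε, hε, C, hC⟩ := key s hs t ht hB
    rw [ContinuousAt, tendsto_iff_norm_sub_tendsto_zero]
    have h1 : Filter.Tendsto (fun y : ℝ => (2 * L0 / t) * |y - s| + C * (y - s) ^ 2) (nhds s)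
        (nhds 0) := by
      have hc : Continuous (fun y : ℝ => (2 * L0 / t) * |y - s| + C * (y - s) ^ 2) := by
        fun_prop
      have h2 := hc.tendsto s
      simpa using h2
    refine squeeze_zero' (Filter.Eventually.of_forall fun y => norm_nonneg _) ?_ h1
    filter_upwards [Metric.ball_mem_nhds s hε] with y hy
    rw [Metric.mem_ball, Real.dist_eq] at hy
    have h2 := hC (y - s) hy
    rwa [add_sub_cancel] at h2
  have hder : ∀ s ∈ Set.Icc a b, x0 + (s : ℝ) * (u * I) ∉ Sing A u → HasDerivAt g 0 s := by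
    intro s hs hS
    rw [hasDerivAt_iff_isLittleO_nhds_zero, Asymptotics.isLittleO_iff]
    intro c hc
    obtain ⟨t, ht, hB⟩ := long hA hf hL' (h s hs) hu hS (max 1 (4 * L0 / c))
    have ht1 : 1 ≤ t := (le_max_left _ _).trans ht
    have ht0 : 0 < t := by linarith
    have ht2 : 4 * L0 / c ≤ t := (le_max_right _ _).trans ht
    have ht3 : 2 * L0 / t ≤ c / 2 := by
      rw [div_le_iff₀ hc] at ht2
      rw [div_le_iff₀ ht0]
      linarith
    obtain ⟨ε, hε, C, hC⟩ := key s hs t ht0 hB
    have hδ : 0 < min ε (c / (2 * (|C| + 1))) := lt_min hε (by positivity)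
    filter_upwards [Metric.ball_mem_nhds (0 : ℝ) hδ] with k hk
    rw [Metric.mem_ball, dist_zero_right, Real.norm_eq_abs, lt_min_iff] at hk
    have h2 := hC k hk.1
    have h3 := hk.2
    rw [lt_div_iff₀ (by positivity)] at h3
    rw [smul_zero, sub_zero, Real.norm_eq_abs]
    refine h2.trans ?_
    have h4 : (2 * L0 / t) * |k| ≤ c / 2 * |k| := mul_le_mul_of_nonneg_right ht3 (abs_nonneg _)
    have h5 : C * k ^ 2 ≤ c / 2 * |k| := by
      have e1 : C * k ^ 2 ≤ |C| * k ^ 2 := mul_le_mul_of_nonneg_right (le_abs_self C) (sq_nonneg _)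
      have e2 : k ^ 2 = |k| * |k| := by rw [← sq_abs, sq]
      have e3 : |C| * |k| ≤ c / 2 := by
        have := abs_nonneg k
        have := abs_nonneg C
        nlinarith
      calc C * k ^ 2 ≤ |C| * k ^ 2 := e1
        _ = (|C| * |k|) * |k| := by rw [e2]; ring
        _ ≤ c / 2 * |k| := mul_le_mul_of_nonneg_right e3 (abs_nonneg _)
    linarith
  have hint := MeasureTheory.integral_eq_of_hasDerivAt_off_countable g (fun _ => (0 : ℂ))
    (sing_countable A x0 hu) (a := a) (b := b)
    (fun s hs => (hcont s (by rwa [Set.uIcc_of_le hab] at hs)).continuousWithinAt)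
    (fun s hs => by
      rw [min_eq_left hab, max_eq_right hab] at hs
      exact hder s (Set.Ioo_subset_Icc_self hs.1) hs.2)
    (by simp)
  rw [intervalIntegral.integral_zero] at hint
  exact (sub_eq_zero.1 hint.symm)

end Vale.Agent.P099
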